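import Vale.Agent.P182.H163.SoD
import Vale.Agent.P182.H163.Unit
import Mathlib.LinearAlgebra.Eigenspace.Minpoly

/-!
# P182, Levi branching: weights, root vectors, extremal vectors
-/

namespace Vale.Agent.N182

open Vale.Agent.P182
open scoped InnerProductSpace TensorProduct ComplexConjugate

attribute [local instance 100] LieRing.ofAssociativeRing

set_option linter.all false

variable {n : ℕ}

theorem lie_cartan_eB (a : Fin n → ℂ) (i j : Fin n) :
    ⁅cartan a, eB i j⁆ = (a i + a j) • eB i j := by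
  apply Subtype.ext
  rw [so_lie_val]
  show _ = (a i + a j) • (eB i j).1
  rw [cartan_val]
  ext p q
  rw [Matrix.sub_apply, Matrix.diagonal_mul, Matrix.mul_diagonal, Matrix.smul_apply]
  rcases p with p | p <;> rcases q with q | q <;> simp [eB, Matrix.single_apply]
  by_cases h1 : i = p ∧ j = q
  · obtain ⟨rfl, rfl⟩ := h1
    by_cases h2 : j = i
    · subst h2; simp
    · simp [h2]
  · by_cases h2 : j = p ∧ i = q
    · obtain ⟨rfl, rfl⟩ := h2
      simp [h1]
    · simp [h1, h2]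

theorem tau_eA (i j : Fin n) : tau (eA i j) = eA j i := by
  apply Subtype.ext
  show (eA i j).1.conjTranspose = _
  simp [eA, Matrix.conjTranspose_single]

theorem tau_eB (i j : Fin n) : tau (eB i j) = eC j i := by
  apply Subtype.ext
  show (eB i j).1.conjTranspose = _
  simp [eB, eC, Matrix.conjTranspose_single]

theorem tau_eC (i j : Fin n) : tau (eC i j) = eB j i := by
  rw [← tau_eB, tau_tau]

theorem tau_cartan (a : Fin n → ℂ) : tau (cartan a) = cartan fun i => conj (a i) := by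
  apply Subtype.ext
  show (cartan a).1.conjTranspose = _
  rw [cartan_val, cartan_val, Matrix.diagonal_conjTranspose]
  congr 1
  funext p
  rcases p with p | p <;> simp

theorem eB_swap (i j : Fin n) : eB j i = - eB i j := by
  apply Subtype.ext
  show (eB j i).1 = - (eB i j).1
  simp [eB]

theorem pos_eA {i j : Fin n} (h : i < j) : IsPositive (eA i j) := by
  refine ⟨fun k l hkl => ?_, fun k l => ?_⟩
  · simp only [eA, Matrix.sub_apply, Matrix.single_apply]
    have : ¬ (i = k ∧ j = l) := by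
      rintro ⟨rfl, rfl⟩; exact absurd h (not_lt.2 hkl)
    simp [this]
  · simp [eA, Matrix.single_apply]

theorem pos_eB (i j : Fin n) : IsPositive (eB i j) := by
  refine ⟨fun k l _ => ?_, fun k l => ?_⟩ <;> simp [eB, Matrix.single_apply]

/-- the positive root vectors span the positive part -/
theorem pos_ind {P : so n → Prop} (h0 : P 0) (ha : ∀ x y, P x → P y → P (x + y))
    (hs : ∀ (c : ℂ) x, P x → P (c • x)) (hA : ∀ i j, i < j → P (eA i j))
    (hB : ∀ i j, i < j → P (eB i j)) {x : so n} (hx : IsPositive x) : P x := by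
  let S : Submodule ℂ (so n) :=
    { carrier := {x | P x}
      add_mem' := fun {a b} h1 h2 => ha a b h1 h2
      zero_mem' := h0
      smul_mem' := fun c x h => hs c x h }
  show x ∈ S
  rw [so_expand x]
  refine add_mem (add_mem ?_ ?_) ?_
  · refine sum_mem fun i _ => sum_mem fun j _ => ?_
    by_cases h : i < j
    · exact S.smul_mem _ (hA i j h)
    · rw [hx.1 i j (not_lt.1 h), zero_smul]; exact S.zero_mem
  · refine S.smul_mem _ (sum_mem fun i _ => sum_mem fun j _ => S.smul_mem _ ?_)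
    rcases lt_trichotomy i j with h | rfl | h
    · exact hB i j h
    · rw [eB_self]; exact S.zero_mem
    · rw [eB_swap]; exact S.neg_mem (hB j i h)
  · refine S.smul_mem _ (sum_mem fun i _ => sum_mem fun j _ => ?_)
    rw [hx.2 i j, zero_smul]; exact S.zero_mem

theorem chi_add (lam : Fin n → ℚ) (x y : so n) : chi lam (x + y) = chi lam x + chi lam y := by
  simp only [chi, ← Finset.sum_add_distrib]
  refine Finset.sum_congr rfl fun i _ => ?_
  show _ * (x.1 _ _ + y.1 _ _) = _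
  ring

theorem chi_smul (lam : Fin n → ℚ) (c : ℂ) (x : so n) : chi lam (c • x) = c * chi lam x := by
  simp only [chi, Finset.mul_sum]
  refine Finset.sum_congr rfl fun i _ => ?_
  show _ * (c * x.1 _ _) = _
  ring

theorem chi_sub (lam : Fin n → ℚ) (x y : so n) : chi lam (x - y) = chi lam x - chi lam y := by
  simp only [chi, ← Finset.sum_sub_distrib]
  refine Finset.sum_congr rfl fun i _ => ?_
  show _ * (x.1 _ _ - y.1 _ _) = _
  ring

theorem chi_add_left (lam mu : Fin n → ℚ) (x : so n) :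
    chi (lam + mu) x = chi lam x + chi mu x := by
  simp only [chi, ← Finset.sum_add_distrib]
  refine Finset.sum_congr rfl fun i _ => ?_
  rw [Pi.add_apply]
  push_cast
  ring

theorem chi_eA_self (lam : Fin n → ℚ) (i : Fin n) : chi lam (eA i i) = lam i := by
  simp [chi, eA, Matrix.single_apply]

theorem eA_self (i : Fin n) : eA i i = cartan (Pi.single i 1) := by
  apply Subtype.ext
  rw [cartan_val]
  ext p q
  rcases p with p | p <;> rcases q with q | q <;>
    simp [eA, Matrix.single_apply, Matrix.diagonal_apply, Pi.single_apply]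
  · by_cases h : p = q
    · subst h; simp [eq_comm]
    · simp only [h, if_false]
      rw [if_neg]
      rintro ⟨rfl, rfl⟩
      exact h rfl
  · by_cases h : p = q
    · subst h; simp [eq_comm]
    · simp only [h, if_false]
      simp only [neg_eq_zero, ite_eq_right_iff, one_ne_zero, imp_false]
      rintro ⟨rfl, rfl⟩
      exact h rfl

section weights

variable {E : Type*} [AddCommGroup E] [Module ℂ E] [LieRingModule (so n) E]
  [LieModule ℂ (so n) E]

/-- `u` has weight `z`. -/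
def Wt (z : Fin n → ℚ) (u : E) : Prop :=
  ∀ a : Fin n → ℂ, ⁅cartan a, u⁆ = (∑ i, (z i : ℂ) * a i) • u

/-- `x` is a root vector for `al`. -/
def Rt (x : so n) (al : Fin n → ℚ) : Prop :=
  ∀ a : Fin n → ℂ, ⁅cartan a, x⁆ = (∑ i, (al i : ℂ) * a i) • x

theorem Wt.lie {z al : Fin n → ℚ} {u : E} {x : so n} (hu : Wt z u) (hx : Rt x al) :
    Wt (z + al) ⁅x, u⁆ := by
  intro a
  rw [leibniz_lie, hx a, hu a, smul_lie, lie_smul, ← add_smul]
  congr 1
  rw [← Finset.sum_add_distrib]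
  refine Finset.sum_congr rfl fun i _ => ?_
  rw [Pi.add_apply]
  push_cast
  ring

theorem sum_single (i : Fin n) (a : Fin n → ℂ) :
    ∑ k, (((Pi.single i 1 : Fin n → ℚ) k : ℚ) : ℂ) * a k = a i := by
  rw [Finset.sum_eq_single i]
  · simp
  · intro k _ hk
    simp [Pi.single_apply, hk]
  · simp

theorem rt_eA (i j : Fin n) : Rt (eA i j) (Pi.single i 1 - Pi.single j 1) := by
  intro a
  rw [lie_cartan_eA, ← sum_single i a, ← sum_single j a, ← Finset.sum_sub_distrib]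
  congr 1
  refine Finset.sum_congr rfl fun k _ => ?_
  rw [Pi.sub_apply]
  push_cast
  ring

theorem rt_eB (i j : Fin n) : Rt (eB i j) (Pi.single i 1 + Pi.single j 1) := by
  intro a
  rw [lie_cartan_eB, ← sum_single i a, ← sum_single j a, ← Finset.sum_add_distrib]
  congr 1
  refine Finset.sum_congr rfl fun k _ => ?_
  rw [Pi.add_apply]
  push_cast
  ring

theorem rt_eC (i j : Fin n) : Rt (eC i j) (-Pi.single i 1 - Pi.single j 1) := by
  intro a
  rw [lie_cartan_eC, ← sum_single i a, ← sum_single j a, ← Finset.sum_neg_distrib,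
    ← Finset.sum_sub_distrib]
  congr 1
  refine Finset.sum_congr rfl fun k _ => ?_
  rw [Pi.sub_apply, Pi.neg_apply]
  push_cast
  ring

/-- the pairing of two weights -/
def dot (c z : Fin n → ℚ) : ℚ := ∑ i, c i * z i

theorem dot_add (c z w : Fin n → ℚ) : dot c (z + w) = dot c z + dot c w := by
  simp [dot, mul_add, Finset.sum_add_distrib]

theorem dot_sub (c z w : Fin n → ℚ) : dot c (z - w) = dot c z - dot c w := by
  simp [dot, mul_sub, Finset.sum_sub_distrib]

theorem dot_neg (c z : Fin n → ℚ) : dot c (-z) = - dot c z := by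
  simp [dot, Finset.sum_neg_distrib]

theorem dot_single (c : Fin n → ℚ) (i : Fin n) : dot c (Pi.single i 1) = c i := by
  simp [dot, Pi.single_apply]

theorem finite_dot [FiniteDimensional ℂ E] (c : Fin n → ℚ) :
    Set.Finite {r : ℚ | ∃ (z : Fin n → ℚ) (u : E), u ≠ 0 ∧ Wt z u ∧ r = dot c z} := by
  have h := Module.End.finite_hasEigenvalue
    (LieModule.toEnd ℂ (so n) E (cartan fun i => (c i : ℂ)))
  refine (h.preimage (f := fun r : ℚ => (r : ℂ)) (Rat.cast_injective.injOn)).subset ?_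
  rintro r ⟨z, u, hu, hz, rfl⟩
  refine Module.End.hasEigenvalue_of_hasEigenvector (x := u) ⟨?_, hu⟩
  rw [Module.End.mem_eigenspace_iff, LieModule.toEnd_apply_apply, hz]
  congr 1
  simp [dot, mul_comm]

theorem finite_wt [FiniteDimensional ℂ E] :
    Set.Finite {z : Fin n → ℚ | ∃ u : E, u ≠ 0 ∧ Wt z u} := by
  refine (Set.Finite.pi' fun i => finite_dot (E := E) (Pi.single i 1)).subset ?_
  rintro z ⟨u, hu, hz⟩ i
  refine ⟨z, u, hu, hz, ?_⟩
  simp [dot, Pi.single_apply]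

/-- extremal vectors -/
theorem extremal [FiniteDimensional ℂ E] (S : Set (so n × (Fin n → ℚ))) (c : Fin n → ℚ)
    (hS : ∀ p ∈ S, Rt p.1 p.2 ∧ 0 < dot c p.2) (P : (Fin n → ℚ) → E → Prop)
    (hP : ∀ p ∈ S, ∀ z u, P z u → P (z + p.2) ⁅p.1, u⁆) {z : Fin n → ℚ} {u : E} (hu : u ≠ 0)
    (hz : Wt z u) (h : P z u) :
    ∃ (z' : Fin n → ℚ) (u' : E), u' ≠ 0 ∧ Wt z' u' ∧ P z' u' ∧ ∀ p ∈ S, ⁅p.1, u'⁆ = 0 := by
  have hf : Set.Finite {z : Fin n → ℚ | ∃ u : E, u ≠ 0 ∧ Wt z u ∧ P z u} :=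
    (finite_wt (E := E)).subset fun z ⟨u, h1, h2, _⟩ => ⟨u, h1, h2⟩
  obtain ⟨z', ⟨u', h1, h2, h3⟩, hm⟩ := Set.exists_max_image _ (dot c) hf ⟨z, u, hu, hz, h⟩
  refine ⟨z', u', h1, h2, h3, fun p hp => ?_⟩
  by_contra hne
  have := hm (z' + p.2) ⟨_, hne, h2.lie (hS p hp).1, hP p hp _ _ h3⟩
  rw [dot_add] at this
  linarith [(hS p hp).2]

/-- positive root vectors with their roots -/
def posS (n : ℕ) : Set (so n × (Fin n → ℚ)) :=
  {p | ∃ i j : Fin n, i < j ∧ (p = (eA i j, Pi.single i 1 - Pi.single j 1) ∨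
    p = (eB i j, Pi.single i 1 + Pi.single j 1))}

/-- negative root vectors with their roots -/
def negS (n : ℕ) : Set (so n × (Fin n → ℚ)) :=
  {p | ∃ i j : Fin n, i < j ∧ (p = (eA j i, Pi.single j 1 - Pi.single i 1) ∨
    p = (eC j i, -Pi.single j 1 - Pi.single i 1))}

theorem posS_ht : ∀ p ∈ posS n, Rt p.1 p.2 ∧ 0 < dot (fun i => (n : ℚ) - (i : ℕ)) p.2 := by
  rintro p ⟨i, j, h, rfl | rfl⟩
  · refine ⟨rt_eA i j, ?_⟩
    rw [dot_sub, dot_single, dot_single]
    have : ((i : ℕ) : ℚ) < (j : ℕ) := by exact_mod_cast h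
    linarith
  · refine ⟨rt_eB i j, ?_⟩
    rw [dot_add, dot_single, dot_single]
    have h1 : ((i : ℕ) : ℚ) < n := by exact_mod_cast i.2
    have h2 : ((j : ℕ) : ℚ) < n := by exact_mod_cast j.2
    linarith

theorem negS_ht : ∀ p ∈ negS n, Rt p.1 p.2 ∧ 0 < dot (fun i => ((i : ℕ) : ℚ) - n) p.2 := by
  rintro p ⟨i, j, h, rfl | rfl⟩
  · refine ⟨rt_eA j i, ?_⟩
    rw [dot_sub, dot_single, dot_single]
    have : ((i : ℕ) : ℚ) < (j : ℕ) := by exact_mod_cast h
    linarith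
  · refine ⟨rt_eC j i, ?_⟩
    rw [dot_sub, dot_neg, dot_single, dot_single]
    have h1 : ((i : ℕ) : ℚ) < n := by exact_mod_cast i.2
    have h2 : ((j : ℕ) : ℚ) < n := by exact_mod_cast j.2
    linarith

theorem hw_of_posS {z : Fin n → ℚ} {u : E} (hz : Wt z u) (h : ∀ p ∈ posS n, ⁅p.1, u⁆ = 0) :
    IsHW (triD n) (chi z) u := by
  refine (isHW_iff z u).2 ⟨hz, fun x hx => ?_⟩
  refine pos_ind (P := fun x => ⁅x, u⁆ = 0) (zero_lie u) (fun x y h1 h2 => ?_)
    (fun c x h1 => ?_) (fun i j hij => h _ ⟨i, j, hij, Or.inl rfl⟩)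
    (fun i j hij => h _ ⟨i, j, hij, Or.inr rfl⟩) hx
  · rw [add_lie, h1, h2, add_zero]
  · rw [smul_lie, h1, smul_zero]

end weights

section unitary

variable {E : Type*} [NormedAddCommGroup E] [InnerProductSpace ℂ E]
  [LieRingModule (so n) E] [LieModule ℂ (so n) E]

theorem tau_N_pos {y : so n} (hy : y ∈ (triD n).N) : IsPositive (tau y) := by
  rcases hy with ⟨i, j, h, rfl⟩ | ⟨i, j, rfl⟩
  · rw [tau_eA]; exact pos_eA h
  · rw [tau_eC]; exact pos_eB _ _

theorem chi_N (z : Fin n → ℚ) {y : so n} (hy : y ∈ (triD n).N) : chi z y = 0 := by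
  rcases hy with ⟨i, j, h, rfl⟩ | ⟨i, j, rfl⟩
  · refine Finset.sum_eq_zero fun k _ => ?_
    have : ¬ (j = k ∧ i = k) := by
      rintro ⟨rfl, rfl⟩; exact lt_irrefl _ h
    simp [eA, Matrix.single_apply, this]
  · simp [chi, eC, Matrix.single_apply]

theorem hw_inner (hE : IsUnitary (tau (n := n)) E) {z : Fin n → ℚ} {b : E}
    (hb : IsHW (triD n) (chi z) b) (x : so n) : ⟪b, ⁅x, b⁆⟫_ℂ = chi z x * ⟪b, b⟫_ℂ := by
  obtain ⟨y, hy, c, hc, rfl⟩ := decomp (triD n) x
  rw [add_lie, inner_add_right, hb c hc, inner_smul_right, chi_add, add_mul]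
  congr 1
  induction hy using Submodule.span_induction with
  | mem y hy =>
    have h1 := hE (tau y) b b
    rw [tau_tau, ((isHW_iff z b).1 hb).2 _ (tau_N_pos hy), inner_zero_left] at h1
    rw [← h1, chi_N z hy, zero_mul]
  | zero => simp [chi]
  | add x y _ _ h1 h2 => rw [add_lie, inner_add_right, h1, h2, chi_add, add_mul]
  | smul a x _ h1 => rw [smul_lie, inner_smul_right, h1, chi_smul, mul_assoc]

/-- the norm of `τ x • b` when `x b = 0` -/
theorem norm_tau (hE : IsUnitary (tau (n := n)) E) {b : E} {x : so n} (hx : ⁅x, b⁆ = 0) :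
    ⟪⁅tau x, b⁆, ⁅tau x, b⁆⟫_ℂ = ⟪b, ⁅⁅x, tau x⁆, b⁆⟫_ℂ := by
  rw [hE, tau_tau, lie_lie, hx, lie_zero, sub_zero]

theorem wt_eA_self {z : Fin n → ℚ} {b : E} (hb : Wt z b) (i : Fin n) :
    ⁅eA i i, b⁆ = (z i : ℂ) • b := by
  rw [eA_self, hb]
  congr 1
  simp [Pi.single_apply]

theorem nonneg_of_norm {b u : E} (hb : b ≠ 0) {r : ℚ} (h : ⟪u, u⟫_ℂ = (r : ℂ) * ⟪b, b⟫_ℂ) :
    0 ≤ r := by
  rw [inner_self_eq_norm_sq_to_K, inner_self_eq_norm_sq_to_K] at h
  have h1 : (‖u‖ : ℝ) ^ 2 = (r : ℝ) * ‖b‖ ^ 2 := by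
    have := congrArg Complex.re h
    simpa [← Complex.ofReal_pow] using this
  have h2 : 0 < ‖b‖ ^ 2 := by positivity
  have h3 : (0 : ℝ) ≤ r := by
    by_contra hc
    push Not at hc
    nlinarith [sq_nonneg ‖u‖]
  exact_mod_cast h3

theorem norm_eA (hE : IsUnitary (tau (n := n)) E) {z : Fin n → ℚ} {b : E} (hb : Wt z b)
    {i j : Fin n} (h : i ≠ j) (h0 : ⁅eA i j, b⁆ = 0) :
    ⟪⁅eA j i, b⁆, ⁅eA j i, b⁆⟫_ℂ = ((z i - z j : ℚ) : ℂ) * ⟪b, b⟫_ℂ := by
  have := norm_tau hE h0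
  rw [tau_eA, lie_eA_eA h, sub_lie, wt_eA_self hb, wt_eA_self hb, ← sub_smul,
    inner_smul_right] at this
  rw [this]
  push_cast
  rfl

theorem norm_eB (hE : IsUnitary (tau (n := n)) E) {z : Fin n → ℚ} {b : E} (hb : Wt z b)
    {i j : Fin n} (h : i ≠ j) (h0 : ⁅eB i j, b⁆ = 0) :
    ⟪⁅eC j i, b⁆, ⁅eC j i, b⁆⟫_ℂ = ((z i + z j : ℚ) : ℂ) * ⟪b, b⟫_ℂ := by
  have := norm_tau hE h0
  rw [tau_eB, lie_eB_eC h, add_lie, wt_eA_self hb, wt_eA_self hb, ← add_smul,
    inner_smul_right] at this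
  rw [this]
  push_cast
  rfl

theorem norm_eC (hE : IsUnitary (tau (n := n)) E) {z : Fin n → ℚ} {b : E} (hb : Wt z b)
    {i j : Fin n} (h : i ≠ j) (h0 : ⁅eC j i, b⁆ = 0) :
    ⟪⁅eB i j, b⁆, ⁅eB i j, b⁆⟫_ℂ = ((-z i - z j : ℚ) : ℂ) * ⟪b, b⟫_ℂ := by
  have := norm_tau hE h0
  rw [tau_eC, ← lie_skew, lie_eB_eC h, neg_lie, add_lie, wt_eA_self hb, wt_eA_self hb, ← add_smul,
    ← neg_smul, inner_smul_right] at this
  rw [this]
  push_cast
  ring

/-- highest weights are dominant -/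
theorem dom_of_hw (hE : IsUnitary (tau (n := n)) E) {z : Fin n → ℚ} {b : E} (hb0 : b ≠ 0)
    (hb : IsHW (triD n) (chi z) b) {i j : Fin n} (h : i < j) : |z j| ≤ z i := by
  obtain ⟨h1, h2⟩ := (isHW_iff z b).1 hb
  have a1 := nonneg_of_norm hb0 (norm_eA hE h1 h.ne (h2 _ (pos_eA h)))
  have a2 := nonneg_of_norm hb0 (norm_eB hE h1 h.ne (h2 _ (pos_eB i j)))
  rw [abs_le]
  constructor <;> linarith

/-- lowest weights are antidominant -/
theorem dom_of_lw (hE : IsUnitary (tau (n := n)) E) {z : Fin n → ℚ} {b : E} (hb0 : b ≠ 0)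
    (h1 : Wt z b) (h2 : ∀ p ∈ negS n, ⁅p.1, b⁆ = 0) {i j : Fin n} (h : i < j) :
    |(-z) j| ≤ (-z) i := by
  have a1 := nonneg_of_norm hb0 (norm_eA hE h1 h.ne' (h2 _ ⟨i, j, h, Or.inl rfl⟩))
  have a2 := nonneg_of_norm hb0 (norm_eC hE h1 h.ne (h2 _ ⟨i, j, h, Or.inr rfl⟩))
  rw [abs_le, Pi.neg_apply, Pi.neg_apply]
  constructor <;> linarith

end unitary

end Vale.Agent.N182
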