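import Vale.Agent.N182.A
import Vale.Agent.P182G78.Phi
import Mathlib.Analysis.InnerProductSpace.Spectrum

/-!
# P182, Levi branching: the Casimir operator
-/

namespace Vale.Agent.N182

open Vale.Agent.P182
open scoped InnerProductSpace TensorProduct ComplexConjugate

attribute [local instance 100] LieRing.ofAssociativeRing

set_option linter.all false

variable {n : ℕ}

/-- the standard spanning family of `so(2n)` -/
def X : Fin n ⊕ Fin n → Fin n ⊕ Fin n → so n
  | Sum.inl i, Sum.inl j => eA i j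
  | Sum.inl i, Sum.inr j => eB i j
  | Sum.inr i, Sum.inl j => eC i j
  | Sum.inr i, Sum.inr j => - eA j i

theorem X_val (p q : Fin n ⊕ Fin n) :
    (X p q).1 = Matrix.single p q 1 - Matrix.single q.swap p.swap 1 := by
  rcases p with i | i <;> rcases q with j | j
  · rfl
  · rfl
  · rfl
  · show -(eA j i).1 = _
    simp [eA]

theorem tau_X (p q : Fin n ⊕ Fin n) : tau (X p q) = X q p := by
  apply Subtype.ext
  show (X p q).1.conjTranspose = _
  rw [X_val, X_val]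
  simp [Matrix.conjTranspose_single]

theorem mul_single' {I : Type*} [Fintype I] [DecidableEq I] (y : Matrix I I ℂ) (p q : I) :
    y * Matrix.single p q 1 = ∑ r, y r p • Matrix.single r q (1 : ℂ) := by
  ext a b
  simp [Matrix.mul_apply, Matrix.sum_apply, Matrix.single_apply, ite_and]

theorem single_mul' {I : Type*} [Fintype I] [DecidableEq I] (y : Matrix I I ℂ) (p q : I) :
    Matrix.single p q 1 * y = ∑ r, y q r • Matrix.single p r (1 : ℂ) := by
  ext a b
  simp [Matrix.mul_apply, Matrix.sum_apply, Matrix.single_apply, ite_and]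

theorem so_sum_val {I : Type*} (s : Finset I) (g : I → so n) :
    (∑ i ∈ s, g i).1 = ∑ i ∈ s, (g i).1 :=
  map_sum (so n).toSubmodule.subtype g s

theorem lie_X (y : so n) (p q : Fin n ⊕ Fin n) :
    ⁅y, X p q⁆ = ∑ r, y.1 r p • X r q - ∑ r, y.1 q r • X p r := by
  apply Subtype.ext
  rw [so_lie_val]
  show _ = (∑ r, y.1 r p • X r q).1 - (∑ r, y.1 q r • X p r).1
  rw [so_sum_val, so_sum_val]
  have e1 : ∀ r, (y.1 r p • X r q).1 = y.1 r p • (Matrix.single r q (1 : ℂ) -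
      Matrix.single q.swap r.swap 1) := fun r => by rw [← X_val]; rfl
  have e2 : ∀ r, (y.1 q r • X p r).1 = y.1 q r • (Matrix.single p r (1 : ℂ) -
      Matrix.single r.swap p.swap 1) := fun r => by rw [← X_val]; rfl
  simp only [e1, e2, smul_sub, Finset.sum_sub_distrib]
  rw [X_val, mul_sub, sub_mul, mul_single', mul_single', single_mul', single_mul']
  have h1 : ∑ r, y.1 r q.swap • Matrix.single r p.swap (1 : ℂ) =
      - ∑ r : Fin n ⊕ Fin n, y.1 q r • Matrix.single r.swap p.swap (1 : ℂ) := by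
    rw [← P182G78.sum_swap, ← Finset.sum_neg_distrib]
    refine Finset.sum_congr rfl fun r _ => ?_
    rw [P182G78.skew y r.swap q.swap, Sum.swap_swap, Sum.swap_swap, neg_smul]
  have h2 : ∑ r, y.1 p.swap r • Matrix.single q.swap r (1 : ℂ) =
      - ∑ r : Fin n ⊕ Fin n, y.1 r p • Matrix.single q.swap r.swap (1 : ℂ) := by
    rw [← P182G78.sum_swap, ← Finset.sum_neg_distrib]
    refine Finset.sum_congr rfl fun r _ => ?_
    rw [P182G78.skew y p.swap r.swap, Sum.swap_swap, Sum.swap_swap, neg_smul]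
  rw [h1, h2]
  abel

theorem chi_neg (z : Fin n → ℚ) (x : so n) : chi z (-x) = - chi z x := by
  rw [← neg_one_smul ℂ x, chi_smul]; ring

theorem chi_eA_ne (z : Fin n → ℚ) {i j : Fin n} (h : i ≠ j) : chi z (eA i j) = 0 := by
  refine Finset.sum_eq_zero fun k _ => ?_
  have : ¬ (i = k ∧ j = k) := by
    rintro ⟨rfl, rfl⟩; exact h rfl
  simp [eA, this]

theorem chi_X_ne (z : Fin n → ℚ) {p q : Fin n ⊕ Fin n} (h : p ≠ q) : chi z (X p q) = 0 := by
  rcases p with i | i <;> rcases q with j | j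
  · exact chi_eA_ne z fun e => h (by rw [e])
  · simp [X, chi, eB]
  · simp [X, chi, eC]
  · show chi z (- eA j i) = 0
    rw [chi_neg, chi_eA_ne z fun e => h (by rw [e]), neg_zero]

theorem sum_chi_X (z w : Fin n → ℚ) :
    ∑ p, chi z (X p p) * chi w (X p p) = ((2 * dot z w : ℚ) : ℂ) := by
  rw [Fintype.sum_sum_type]
  simp only [X, chi_neg, chi_eA_self, dot]
  push_cast
  rw [← Finset.sum_add_distrib, Finset.mul_sum]
  exact Finset.sum_congr rfl fun i _ => by ring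

theorem pos_neg {x : so n} (h : IsPositive x) : IsPositive (-x) := by
  refine ⟨fun i j hij => ?_, fun i j => ?_⟩
  · show -(x.1 _ _) = 0
    rw [h.1 i j hij, neg_zero]
  · show -(x.1 _ _) = 0
    rw [h.2 i j, neg_zero]

theorem pos_or {p q : Fin n ⊕ Fin n} (h : p ≠ q) : IsPositive (X p q) ∨ IsPositive (X q p) := by
  rcases p with i | i <;> rcases q with j | j
  · rcases lt_or_gt_of_ne (fun e : i = j => h (by rw [e])) with h | h
    · exact Or.inl (pos_eA h)
    · exact Or.inr (pos_eA h)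
  · exact Or.inl (pos_eB _ _)
  · exact Or.inr (pos_eB _ _)
  · rcases lt_or_gt_of_ne (fun e : i = j => h (by rw [e])) with h | h
    · exact Or.inr (pos_neg (pos_eA h))
    · exact Or.inl (pos_neg (pos_eA h))

section

variable {E : Type*} [AddCommGroup E] [Module ℂ E] [LieRingModule (so n) E]
  [LieModule ℂ (so n) E]

/-- the Casimir operator -/
noncomputable def cas (n : ℕ) (E : Type*) [AddCommGroup E] [Module ℂ E] [LieRingModule (so n) E]
    [LieModule ℂ (so n) E] : Module.End ℂ E :=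
  ∑ p, ∑ q, LieModule.toEnd ℂ (so n) E (X p q) * LieModule.toEnd ℂ (so n) E (X q p)

theorem cas_apply (u : E) :
    cas n E u = ∑ p : Fin n ⊕ Fin n, ∑ q : Fin n ⊕ Fin n, ⁅X p q, ⁅X q p, u⁆⁆ := by
  simp [cas, LinearMap.sum_apply]

theorem sum_lie' {I : Type*} (s : Finset I) (g : I → so n) (u : E) :
    ⁅∑ i ∈ s, g i, u⁆ = ∑ i ∈ s, ⁅g i, u⁆ := by
  classical
  induction s using Finset.induction_on with
  | empty => simp
  | insert a s ha ih => rw [Finset.sum_insert ha, Finset.sum_insert ha, add_lie, ih]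

theorem lie_sum' {I : Type*} (s : Finset I) (x : so n) (g : I → E) :
    ⁅x, ∑ i ∈ s, g i⁆ = ∑ i ∈ s, ⁅x, g i⁆ :=
  map_sum (LieModule.toEnd ℂ (so n) E x) g s

theorem cas_lie (y : so n) (u : E) : ⁅y, cas n E u⁆ = cas n E ⁅y, u⁆ := by
  rw [cas_apply, cas_apply, lie_sum']
  simp only [lie_sum']
  have e : ∀ p q : Fin n ⊕ Fin n, ⁅y, ⁅X p q, ⁅X q p, u⁆⁆⁆ = ⁅X p q, ⁅X q p, ⁅y, u⁆⁆⁆ +
      ((∑ r, y.1 r p • ⁅X r q, ⁅X q p, u⁆⁆ - ∑ r, y.1 q r • ⁅X p r, ⁅X q p, u⁆⁆) +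
        (∑ r, y.1 r q • ⁅X p q, ⁅X r p, u⁆⁆ - ∑ r, y.1 p r • ⁅X p q, ⁅X q r, u⁆⁆)) := by
    intro p q
    rw [leibniz_lie y (X p q), leibniz_lie y (X q p), lie_add, lie_X, lie_X, sub_lie, sub_lie,
      sum_lie', sum_lie', sum_lie', sum_lie', lie_sub, lie_sum', lie_sum']
    simp only [smul_lie, lie_smul]
    abel
  simp only [e, Finset.sum_add_distrib, Finset.sum_sub_distrib]
  have h1 : ∑ p : Fin n ⊕ Fin n, ∑ q : Fin n ⊕ Fin n, ∑ r, y.1 r p • ⁅X r q, ⁅X q p, u⁆⁆ =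
      ∑ p : Fin n ⊕ Fin n, ∑ q : Fin n ⊕ Fin n, ∑ r, y.1 p r • ⁅X p q, ⁅X q r, u⁆⁆ := by
    rw [Finset.sum_comm]
    conv_rhs => rw [Finset.sum_comm]
    exact Finset.sum_congr rfl fun q _ => Finset.sum_comm
  have h2 : ∑ p : Fin n ⊕ Fin n, ∑ q : Fin n ⊕ Fin n, ∑ r, y.1 q r • ⁅X p r, ⁅X q p, u⁆⁆ =
      ∑ p : Fin n ⊕ Fin n, ∑ q : Fin n ⊕ Fin n, ∑ r, y.1 r q • ⁅X p q, ⁅X r p, u⁆⁆ :=
    Finset.sum_congr rfl fun p _ => Finset.sum_comm
  rw [h1, h2]
  abel

theorem wt_X {z : Fin n → ℚ} {u : E} (hu : Wt z u) (p : Fin n ⊕ Fin n) :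
    ⁅X p p, u⁆ = chi z (X p p) • u := by
  have h : ∀ i : Fin n, ⁅eA i i, u⁆ = (z i : ℂ) • u := fun i => by
    rw [eA_self, hu]
    congr 1
    simp [Pi.single_apply]
  rcases p with i | i
  · show ⁅eA i i, u⁆ = chi z (eA i i) • u
    rw [h, chi_eA_self]
  · show ⁅- eA i i, u⁆ = chi z (- eA i i) • u
    rw [neg_lie, h, chi_neg, chi_eA_self, neg_smul]

/-- eigenspaces of the Casimir operator -/
noncomputable def eig (t : ℂ) : LieSubmodule ℂ (so n) E where
  toSubmodule := Module.End.eigenspace (cas n E) t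
  lie_mem := by
    intro x m hm
    have hm' : m ∈ Module.End.eigenspace (cas n E) t := hm
    show ⁅x, m⁆ ∈ Module.End.eigenspace (cas n E) t
    rw [Module.End.mem_eigenspace_iff] at hm' ⊢
    rw [← cas_lie, hm', lie_smul]

theorem mem_eig {t : ℂ} {u : E} : u ∈ eig (n := n) t ↔ cas n E u = t • u :=
  Module.End.mem_eigenspace_iff

end

open Classical in
/-- the linear part of the Casimir eigenvalue -/
noncomputable def lin (z : Fin n → ℚ) : ℂ :=
  ∑ p : Fin n ⊕ Fin n, ∑ q : Fin n ⊕ Fin n,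
    if p ≠ q ∧ ¬ IsPositive (X q p) then chi z ⁅X p q, X q p⁆ else 0

theorem lin_add (z w : Fin n → ℚ) : lin (z + w) = lin z + lin w := by
  simp only [lin, ← Finset.sum_add_distrib]
  refine Finset.sum_congr rfl fun p _ => Finset.sum_congr rfl fun q _ => ?_
  split_ifs
  · exact chi_add_left _ _ _
  · simp

/-- the Casimir eigenvalue -/
noncomputable def cr (z : Fin n → ℚ) : ℝ := 2 * (dot z z : ℝ) + (lin z).re

theorem dot_comm (z w : Fin n → ℚ) : dot z w = dot w z := by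
  simp [dot, mul_comm]

theorem cr_add (z w : Fin n → ℚ) : cr (z + w) = cr z + 4 * (dot z w : ℝ) + cr w := by
  rw [cr, cr, cr, lin_add, dot_add, dot_comm (z + w) z, dot_comm (z + w) w, dot_add, dot_add,
    dot_comm w z, Complex.add_re]
  push_cast
  ring

section unitary

variable {E F : Type*} [NormedAddCommGroup E] [InnerProductSpace ℂ E]
  [LieRingModule (so n) E] [LieModule ℂ (so n) E] [NormedAddCommGroup F] [InnerProductSpace ℂ F]
  [LieRingModule (so n) F] [LieModule ℂ (so n) F]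

theorem cas_symm (hE : IsUnitary (tau (n := n)) E) : (cas n E).IsSymmetric := by
  intro u v
  rw [cas_apply, cas_apply, sum_inner, inner_sum]
  refine Finset.sum_congr rfl fun p _ => ?_
  rw [sum_inner, inner_sum]
  refine Finset.sum_congr rfl fun q _ => ?_
  rw [hE, hE, tau_X, tau_X]

theorem cas_hw (hE : IsUnitary (tau (n := n)) E) {z : Fin n → ℚ} {b : E}
    (hb : IsHW (triD n) (chi z) b) :
    ⟪b, cas n E b⟫_ℂ = (((2 * dot z z : ℚ) : ℂ) + lin z) * ⟪b, b⟫_ℂ := by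
  classical
  obtain ⟨h1, h2⟩ := (isHW_iff z b).1 hb
  rw [cas_apply, inner_sum, ← sum_chi_X, lin, ← Finset.sum_add_distrib, Finset.sum_mul]
  refine Finset.sum_congr rfl fun p _ => ?_
  have e : chi z (X p p) * chi z (X p p) =
      ∑ q, if p = q then chi z (X p p) * chi z (X p p) else 0 := by simp
  rw [inner_sum, e, ← Finset.sum_add_distrib, Finset.sum_mul]
  refine Finset.sum_congr rfl fun q _ => ?_
  by_cases h : p = q
  · subst h
    rw [wt_X h1, lie_smul, wt_X h1, inner_smul_right, inner_smul_right]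
    simp [mul_assoc]
  · rw [if_neg h, zero_add]
    by_cases h' : IsPositive (X q p)
    · rw [h2 _ h', lie_zero, inner_zero_right, if_neg (fun hc => hc.2 h'), zero_mul]
    · rw [if_pos ⟨h, h'⟩, ← hw_inner hE hb, lie_lie, h2 _ ((pos_or h).resolve_right h'), lie_zero,
        sub_zero]

theorem cas_tmul (hF : IsUnitary (tau (n := n)) F) {mu nu : Fin n → ℚ} {v : E} {b : F}
    (hv : Wt mu v) (hb : IsHW (triD n) (chi nu) b) :
    ⟪v ⊗ₜ[ℂ] b, cas n (E ⊗[ℂ] F) (v ⊗ₜ[ℂ] b)⟫_ℂ = ⟪v, cas n E v⟫_ℂ * ⟪b, b⟫_ℂ +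
      ⟪v, v⟫_ℂ * ⟪b, cas n F b⟫_ℂ + ((4 * dot nu mu : ℚ) : ℂ) * (⟪v, v⟫_ℂ * ⟪b, b⟫_ℂ) := by
  classical
  have e4 : ((4 * dot nu mu : ℚ) : ℂ) = ∑ p, 2 * (chi nu (X p p) * chi mu (X p p)) := by
    rw [← Finset.mul_sum, sum_chi_X]
    push_cast
    ring
  rw [cas_apply, cas_apply, cas_apply, e4, inner_sum, inner_sum, inner_sum, Finset.sum_mul,
    Finset.mul_sum, Finset.sum_mul, ← Finset.sum_add_distrib, ← Finset.sum_add_distrib]
  refine Finset.sum_congr rfl fun p _ => ?_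
  have e : 2 * (chi nu (X p p) * chi mu (X p p)) * (⟪v, v⟫_ℂ * ⟪b, b⟫_ℂ) =
      ∑ q, if p = q then 2 * (chi nu (X p p) * chi mu (X p p)) * (⟪v, v⟫_ℂ * ⟪b, b⟫_ℂ)
        else 0 := by simp
  rw [e, inner_sum, inner_sum, inner_sum, Finset.sum_mul, Finset.mul_sum, ← Finset.sum_add_distrib,
    ← Finset.sum_add_distrib]
  refine Finset.sum_congr rfl fun q _ => ?_
  simp only [TensorProduct.LieModule.lie_tmul_right, lie_add, inner_add_right,
    TensorProduct.inner_tmul]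
  rw [hw_inner hF hb (X p q), hw_inner hF hb (X q p)]
  by_cases h : p = q
  · subst h
    rw [if_pos rfl, wt_X hv, inner_smul_right]
    ring
  · rw [if_neg h, chi_X_ne nu h, chi_X_ne nu (Ne.symm h)]
    ring

end unitary

/-- a small eigenvalue seen by `u` -/
theorem small_eigen {E : Type*} [NormedAddCommGroup E] [InnerProductSpace ℂ E]
    [FiniteDimensional ℂ E] {T : Module.End ℂ E} (hT : T.IsSymmetric) {u : E} (hu : u ≠ 0) {m : ℝ}
    (h : (⟪u, T u⟫_ℂ).re ≤ m * ‖u‖ ^ 2) :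
    ∃ (t : ℝ) (y : E), t ≤ m ∧ T y = (t : ℂ) • y ∧ ⟪y, u⟫_ℂ ≠ 0 := by
  let b := hT.eigenvectorBasis rfl
  let t := hT.eigenvalues rfl
  have hb : ∀ i, T (b i) = (t i : ℂ) • b i := fun i => hT.apply_eigenvectorBasis rfl i
  by_contra hc
  push Not at hc
  have h1 : ‖u‖ ^ 2 = ∑ i, ‖⟪b i, u⟫_ℂ‖ ^ 2 := (b.sum_sq_norm_inner_right u).symm
  have h2 : (⟪u, T u⟫_ℂ).re = ∑ i, t i * ‖⟪b i, u⟫_ℂ‖ ^ 2 := by
    rw [← b.sum_inner_mul_inner, Complex.re_sum]
    refine Finset.sum_congr rfl fun i _ => ?_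
    rw [← hT, hb, inner_smul_left, Complex.conj_ofReal, ← inner_conj_symm u (b i), mul_left_comm,
      Complex.conj_mul', Complex.re_ofReal_mul, ← Complex.ofReal_pow, Complex.ofReal_re]
  have h3 : ∀ i, 0 ≤ (t i - m) * ‖⟪b i, u⟫_ℂ‖ ^ 2 := fun i => by
    by_cases hi : t i ≤ m
    · rw [hc (t i) (b i) hi (hb i)]; simp
    · exact mul_nonneg (by linarith) (sq_nonneg _)
  have h4 : ∑ i, (t i - m) * ‖⟪b i, u⟫_ℂ‖ ^ 2 = 0 := by
    refine le_antisymm ?_ (Finset.sum_nonneg fun i _ => h3 i)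
    simp only [sub_mul, Finset.sum_sub_distrib, ← Finset.mul_sum]
    rw [← h1, ← h2]
    linarith
  rw [Finset.sum_eq_zero_iff_of_nonneg fun i _ => h3 i] at h4
  have h5 : ∀ i, ‖⟪b i, u⟫_ℂ‖ ^ 2 = 0 := fun i => by
    by_cases hi : t i ≤ m
    · rw [hc (t i) (b i) hi (hb i)]; simp
    · exact (mul_eq_zero.1 (h4 i (Finset.mem_univ i))).resolve_left (by linarith)
  simp only [h5, Finset.sum_const_zero] at h1
  exact hu (by simpa using h1)

end Vale.Agent.N182
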