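import Vale.Agent.N182.B

/-!
# P182, Levi branching: from Levi highest weight vectors to tensor products and back
-/

namespace Vale.Agent.N182

open Vale.Agent.P182
open scoped InnerProductSpace TensorProduct ComplexConjugate

attribute [local instance 100] LieRing.ofAssociativeRing

set_option linter.all false

variable {n : ℕ}

/-- positive root vectors of the Levi subalgebra centralising `nu` -/
def LRoot (nu : Fin n → ℚ) (x : so n) : Prop :=
  ∃ i j : Fin n, i < j ∧ ((nu i = nu j ∧ x = eA i j) ∨ (nu i + nu j = 0 ∧ x = eB i j))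

theorem LRoot.pos {nu : Fin n → ℚ} {x : so n} (h : LRoot nu x) : IsPositive x := by
  obtain ⟨i, j, h, ⟨_, rfl⟩ | ⟨_, rfl⟩⟩ := h
  · exact pos_eA h
  · exact pos_eB _ _

theorem one_le_of_int {r : ℚ} (h : ∃ k : ℤ, r = k) (h0 : 0 ≤ r) (h1 : r ≠ 0) : 1 ≤ r := by
  obtain ⟨k, rfl⟩ := h
  have a : (0 : ℤ) ≤ k := by exact_mod_cast h0
  have b : k ≠ 0 := by exact_mod_cast h1
  have : (1 : ℤ) ≤ k := by omega
  exact_mod_cast this

theorem posS_nu {nu : Fin n → ℚ} (hnu : IsDominant nu) :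
    ∀ p ∈ posS n, 0 ≤ dot nu p.2 ∧ (LRoot nu p.1 ∨ 1 ≤ dot nu p.2) := by
  rintro p ⟨i, j, h, rfl | rfl⟩
  · have h1 := (abs_le.1 (hnu.2 i j h)).2
    rw [dot_sub, dot_single, dot_single]
    refine ⟨by linarith, ?_⟩
    by_cases e : nu i = nu j
    · exact Or.inl ⟨i, j, h, Or.inl ⟨e, rfl⟩⟩
    · refine Or.inr (one_le_of_int ?_ (by linarith) (sub_ne_zero.2 e))
      rcases hnu.1 with hi | hi
      · obtain ⟨a, ha⟩ := hi i
        obtain ⟨b, hb⟩ := hi j
        exact ⟨a - b, by rw [ha, hb]; push_cast; ring⟩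
      · obtain ⟨a, ha⟩ := hi i
        obtain ⟨b, hb⟩ := hi j
        exact ⟨a - b, by rw [ha, hb]; push_cast; ring⟩
  · have h1 := (abs_le.1 (hnu.2 i j h)).1
    rw [dot_add, dot_single, dot_single]
    refine ⟨by linarith, ?_⟩
    by_cases e : nu i + nu j = 0
    · exact Or.inl ⟨i, j, h, Or.inr ⟨e, rfl⟩⟩
    · refine Or.inr (one_le_of_int ?_ (by linarith) e)
      rcases hnu.1 with hi | hi
      · obtain ⟨a, ha⟩ := hi i
        obtain ⟨b, hb⟩ := hi j
        exact ⟨a + b, by rw [ha, hb]; push_cast; ring⟩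
      · obtain ⟨a, ha⟩ := hi i
        obtain ⟨b, hb⟩ := hi j
        exact ⟨a + b + 1, by rw [ha, hb]; push_cast; ring⟩

theorem dot_smul (k : ℚ) (c z : Fin n → ℚ) : dot (fun i => k * c i) z = k * dot c z := by
  simp [dot, Finset.mul_sum, mul_assoc]

section general

variable {L : Type*} [LieRing L] [LieAlgebra ℂ L]
variable {M : Type*} [AddCommGroup M] [Module ℂ M] [LieRingModule L M] [LieModule ℂ L M]

theorem cyc_le_N (T : Tri L) {χ : L → ℂ} {v : M} (hv : IsHW T χ v) (K : Submodule ℂ M)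
    (h : v ∈ K) (hN : ∀ y ∈ T.N, ∀ u ∈ K, ⁅y, u⁆ ∈ K) : ∀ m ∈ cyc T hv, m ∈ K := by
  intro m hm
  obtain ⟨k, hk⟩ := (mem_cyc T hv m).mp hm
  clear hm
  induction k generalizing m with
  | zero =>
    obtain ⟨c, rfl⟩ := Submodule.mem_span_singleton.mp hk
    exact K.smul_mem c h
  | succ k ih =>
    obtain ⟨u1, hu1, u2, hu2, rfl⟩ := Submodule.mem_sup.mp hk
    refine add_mem (ih _ hu1) ?_
    have : Submodule.span ℂ {w | ∃ y ∈ T.N, ∃ u ∈ words T v k, w = ⁅y, u⁆} ≤ K := by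
      rw [Submodule.span_le]
      rintro _ ⟨y, hy, u, hu, rfl⟩
      exact hN y hy u (ih _ hu)
    exact this hu2

theorem mem_of_irred [LieModule.IsIrreducible ℂ L M] {K : LieSubmodule ℂ L M} {v : M}
    (hv : v ∈ K) (h0 : v ≠ 0) (m : M) : m ∈ K := by
  rcases IsSimpleOrder.eq_bot_or_eq_top K with h | h
  · rw [h, LieSubmodule.mem_bot] at hv
    exact absurd hv h0
  · rw [h]; trivial

end general

section unitary

variable {E F : Type*} [NormedAddCommGroup E] [InnerProductSpace ℂ E]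
  [LieRingModule (so n) E] [LieModule ℂ (so n) E] [NormedAddCommGroup F] [InnerProductSpace ℂ F]
  [LieRingModule (so n) F] [LieModule ℂ (so n) F]

/-- the component along `b` -/
noncomputable def pr (E : Type*) [NormedAddCommGroup E] [InnerProductSpace ℂ E] (b : F) :
    E ⊗[ℂ] F →ₗ[ℂ] E :=
  (TensorProduct.rid ℂ E).toLinearMap ∘ₗ
    TensorProduct.map LinearMap.id (innerSL ℂ b).toLinearMap

theorem pr_tmul (b : F) (a : E) (c : F) : pr E b (a ⊗ₜ[ℂ] c) = ⟪b, c⟫_ℂ • a := by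
  simp [pr]

theorem inner_pr (b : F) (a : E) (w : E ⊗[ℂ] F) : ⟪a, pr E b w⟫_ℂ = ⟪a ⊗ₜ[ℂ] b, w⟫_ℂ := by
  induction w using TensorProduct.induction_on with
  | zero => simp
  | add x y h1 h2 => rw [map_add, inner_add_right, inner_add_right, h1, h2]
  | tmul x y => rw [pr_tmul, inner_smul_right, TensorProduct.inner_tmul, mul_comm]

theorem pr_add (b c : F) (w : E ⊗[ℂ] F) : pr E (b + c) w = pr E b w + pr E c w := by
  induction w using TensorProduct.induction_on with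
  | zero => simp
  | add x y h1 h2 => rw [map_add, map_add, map_add, h1, h2]; abel
  | tmul x y => rw [pr_tmul, pr_tmul, pr_tmul, inner_add_left, add_smul]

theorem pr_smul (s : ℂ) (b : F) (w : E ⊗[ℂ] F) : pr E (s • b) w = conj s • pr E b w := by
  induction w using TensorProduct.induction_on with
  | zero => simp
  | add x y h1 h2 => rw [map_add, map_add, h1, h2, smul_add]
  | tmul x y => rw [pr_tmul, pr_tmul, inner_smul_left, mul_smul]

theorem pr_zero (w : E ⊗[ℂ] F) : pr E (0 : F) w = 0 := by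
  have := pr_smul (E := E) 0 (0 : F) w
  simpa using this

theorem lie_pr (hF : IsUnitary (tau (n := n)) F) (x : so n) (b : F) (w : E ⊗[ℂ] F) :
    ⁅x, pr E b w⁆ = pr E b ⁅x, w⁆ - pr E ⁅tau x, b⁆ w := by
  induction w using TensorProduct.induction_on with
  | zero => simp
  | add u v h1 h2 => rw [map_add, lie_add, lie_add, map_add, map_add, h1, h2]; abel
  | tmul u v =>
    rw [TensorProduct.LieModule.lie_tmul_right, map_add, pr_tmul, pr_tmul, pr_tmul, pr_tmul,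
      lie_smul, hF, tau_tau]
    abel

theorem pr_ne (hF : IsUnitary (tau (n := n)) F) [LieModule.IsIrreducible ℂ (so n) F]
    {χ : so n → ℂ} {b : F} (hb0 : b ≠ 0) (hb : IsHW (triD n) χ b) {w : E ⊗[ℂ] F} (hw0 : w ≠ 0)
    (hw : ∀ x : so n, IsPositive x → ⁅x, w⁆ = 0) : pr E b w ≠ 0 := by
  intro h
  let K : Submodule ℂ F :=
    { carrier := {c | pr E c w = 0}
      add_mem' := fun {c d} h1 h2 => by
        show pr E (c + d) w = 0
        rw [pr_add, h1, h2, add_zero]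
      zero_mem' := pr_zero w
      smul_mem' := fun s c h1 => by
        show pr E (s • c) w = 0
        rw [pr_smul, h1, smul_zero] }
  have hK : ∀ c : F, pr E c w = 0 := fun c =>
    cyc_le_N (triD n) hb K h (fun y hy u hu => by
      have h1 := lie_pr (E := E) hF (tau y) u w
      have hu' : pr E u w = 0 := hu
      rw [hu', lie_zero, hw _ (tau_N_pos hy), map_zero, tau_tau, zero_sub] at h1
      exact neg_eq_zero.1 h1.symm) c (mem_of_irred (self_mem_cyc _ hb) hb0 c)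
  have h2 : ∀ u : E ⊗[ℂ] F, ⟪u, w⟫_ℂ = 0 := fun u => by
    induction u using TensorProduct.induction_on with
    | zero => simp
    | add x y h1 h2 => rw [inner_add_left, h1, h2, add_zero]
    | tmul x y => rw [← inner_pr, hK, inner_zero_right]
  exact hw0 (inner_self_eq_zero.1 (h2 w))

theorem pr_wt (hF : IsUnitary (tau (n := n)) F) {nu z : Fin n → ℚ} {b : F} (hb : Wt nu b)
    {w : E ⊗[ℂ] F} (hw : Wt z w) : Wt (z - nu) (pr E b w) := by
  intro a
  rw [lie_pr hF, hw, tau_cartan, hb, map_smul, pr_smul, ← sub_smul]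
  congr 1
  rw [map_sum, ← Finset.sum_sub_distrib]
  refine Finset.sum_congr rfl fun i _ => ?_
  simp only [map_mul, Complex.conj_conj, map_ratCast, Pi.sub_apply]
  push_cast
  ring

theorem levi_kill (hF : IsUnitary (tau (n := n)) F) {nu : Fin n → ℚ} {k : ℚ} {b : F}
    (hb : IsHW (triD n) (chi fun i => k * nu i) b) {x : so n} (hx : LRoot nu x) :
    ⁅tau x, b⁆ = 0 := by
  obtain ⟨h1, h2⟩ := (isHW_iff _ b).1 hb
  have h0 := h2 x hx.pos
  obtain ⟨i, j, h, ⟨e, rfl⟩ | ⟨e, rfl⟩⟩ := hx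
  · have := norm_eA hF h1 h.ne h0
    rw [e, sub_self, Rat.cast_zero, zero_mul] at this
    rw [tau_eA]
    exact inner_self_eq_zero.1 this
  · have := norm_eB hF h1 h.ne h0
    rw [← mul_add, e, mul_zero, Rat.cast_zero, zero_mul] at this
    rw [tau_eB]
    exact inner_self_eq_zero.1 this

/-- **down**: a highest weight vector of the tensor product gives a Levi highest weight vector -/
theorem down (hF : IsUnitary (tau (n := n)) F) [LieModule.IsIrreducible ℂ (so n) F]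
    {nu z : Fin n → ℚ} {k : ℚ} {b : F} (hb0 : b ≠ 0)
    (hb : IsHW (triD n) (chi fun i => k * nu i) b) {w : E ⊗[ℂ] F} (hw0 : w ≠ 0)
    (hw : IsHW (triD n) (chi z) w) :
    ∃ v : E, v ≠ 0 ∧ Wt (z - fun i => k * nu i) v ∧ ∀ x, LRoot nu x → ⁅x, v⁆ = 0 := by
  obtain ⟨h1, h2⟩ := (isHW_iff _ w).1 hw
  refine ⟨pr E b w, pr_ne hF hb0 hb hw0 h2, pr_wt hF ((isHW_iff _ b).1 hb).1 h1, fun x hx => ?_⟩
  rw [lie_pr hF, h2 x hx.pos, levi_kill hF hb hx, map_zero, pr_zero, sub_zero]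

theorem proj_keep [FiniteDimensional ℂ E] (hE : IsUnitary (tau (n := n)) E)
    (K : LieSubmodule ℂ (so n) E) {u1 u2 : E} (h1 : u1 ∈ K.toSubmodule) (h2 : u2 ∈ K.toSubmoduleᗮ)
    {x : so n} {s : ℂ} (h : ⁅x, u1 + u2⁆ = s • (u1 + u2)) : ⁅x, u1⁆ = s • u1 := by
  rw [lie_add, smul_add] at h
  have e : ⁅x, u1⁆ - s • u1 = s • u2 - ⁅x, u2⁆ := by
    rw [sub_eq_sub_iff_add_eq_add, h, add_comm]
  have h3 : ⁅x, u1⁆ - s • u1 ∈ K.toSubmodule :=
    sub_mem (K.lie_mem h1) (K.toSubmodule.smul_mem _ h1)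
  have h4 : ⁅x, u1⁆ - s • u1 ∈ K.toSubmoduleᗮ := by
    rw [e]
    exact sub_mem (Submodule.smul_mem _ _ h2) ((orthL hE tau_tau K).lie_mem h2)
  exact sub_eq_zero.1 (inner_self_eq_zero.1 (Submodule.inner_right_of_mem_orthogonal h3 h4))

theorem inner_self_re (u : E) : ⟪u, u⟫_ℂ = ((‖u‖ ^ 2 : ℝ) : ℂ) := by
  rw [inner_self_eq_norm_sq_to_K]
  push_cast
  rfl

theorem eig_hw (hE : IsUnitary (tau (n := n)) E) {z : Fin n → ℚ} {w : E} (hw0 : w ≠ 0)
    (hw : IsHW (triD n) (chi z) w) {t : ℝ} (ht : cas n E w = (t : ℂ) • w) : t = cr z := by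
  have h := cas_hw hE hw
  rw [ht, inner_smul_right] at h
  have h2 := mul_right_cancel₀ (fun e => hw0 (inner_self_eq_zero.1 e)) h
  have h3 := congrArg Complex.re h2
  rw [Complex.ofReal_re, Complex.add_re] at h3
  rw [h3, cr]
  congr 1
  rw [← Complex.ofReal_ratCast, Complex.ofReal_re]
  push_cast
  rfl

end unitary

/-- **up**: a Levi highest weight vector gives a highest weight vector of the tensor product -/
theorem up {E : Type*} [NormedAddCommGroup E] [InnerProductSpace ℂ E] [FiniteDimensional ℂ E]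
    [LieRingModule (so n) E] [LieModule ℂ (so n) E] (hE : IsUnitary (tau (n := n)) E)
    {nu mu : Fin n → ℚ} (hnu : IsDominant nu) {v : E} (hv0 : v ≠ 0) (hv : Wt mu v)
    (hL : ∀ x, LRoot nu x → ⁅x, v⁆ = 0) :
    ∃ k0 : ℕ, ∀ k : ℕ, k0 ≤ k → ∀ (F : Type) [NormedAddCommGroup F] [InnerProductSpace ℂ F]
      [FiniteDimensional ℂ F] [LieRingModule (so n) F] [LieModule ℂ (so n) F]
      [LieModule.IsIrreducible ℂ (so n) F], IsUnitary (tau (n := n)) F → ∀ b : F, b ≠ 0 →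
      IsHW (triD n) (chi fun i => (k : ℚ) * nu i) b →
      ∃ w : E ⊗[ℂ] F, w ≠ 0 ∧ IsHW (triD n) (chi ((fun i => (k : ℚ) * nu i) + mu)) w := by
  obtain ⟨Kb, hKb⟩ := ((finite_wt (n := n) (E := E)).image cr).bddBelow
  have hvp : 0 < ‖v‖ ^ 2 := by positivity
  set K0 : ℝ := (⟪v, cas n E v⟫_ℂ).re / ‖v‖ ^ 2 with hK0
  obtain ⟨k0, hk0⟩ := exists_nat_gt ((K0 - Kb) / 4)
  refine ⟨k0, fun k hk F _ _ _ _ _ _ hF b hb0 hb => ?_⟩
  set nu' : Fin n → ℚ := fun i => (k : ℚ) * nu i with hnu'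
  have hU : IsUnitary (tau (n := n)) (E ⊗[ℂ] F) := isUnitary_tensor hE hF
  obtain ⟨hb1, hb2⟩ := (isHW_iff _ b).1 hb
  have hu0 : v ⊗ₜ[ℂ] b ≠ 0 := by
    intro h0
    have h1 : ⟪v ⊗ₜ[ℂ] b, v ⊗ₜ[ℂ] b⟫_ℂ = 0 := by rw [h0, inner_zero_left]
    rw [TensorProduct.inner_tmul, mul_eq_zero] at h1
    rcases h1 with h1 | h1
    · exact hv0 (inner_self_eq_zero.mp h1)
    · exact hb0 (inner_self_eq_zero.mp h1)
  have hm : (⟪v ⊗ₜ[ℂ] b, cas n (E ⊗[ℂ] F) (v ⊗ₜ[ℂ] b)⟫_ℂ).re ≤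
      (K0 + cr nu' + 4 * (dot nu' mu : ℝ)) * ‖v ⊗ₜ[ℂ] b‖ ^ 2 := by
    rw [cas_tmul hF hv hb, cas_hw hF hb, inner_self_re, inner_self_re, TensorProduct.norm_tmul,
      ← Complex.ofReal_ratCast, ← Complex.ofReal_ratCast, cr, hK0]
    simp only [Complex.add_re, Complex.mul_re, Complex.ofReal_re, Complex.ofReal_im, mul_zero,
      sub_zero, zero_mul, Complex.add_im, Complex.mul_im, add_zero, zero_add]
    push_cast
    apply le_of_eq
    field_simp
  obtain ⟨t, y, ht, hy, hyu⟩ := small_eigen (cas_symm hU) hu0 hm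
  obtain ⟨u1, h1, u2, h2, e⟩ :=
    (eig (n := n) (E := E ⊗[ℂ] F) (t : ℂ)).toSubmodule.exists_add_mem_mem_orthogonal (v ⊗ₜ[ℂ] b)
  have hu1 : u1 ≠ 0 := by
    rintro rfl
    rw [e, zero_add] at hyu
    exact hyu (Submodule.inner_right_of_mem_orthogonal (mem_eig.2 hy) h2)
  have hwt : Wt (nu' + mu) u1 := fun a => by
    refine proj_keep hU _ h1 h2 ?_
    rw [← e, TensorProduct.LieModule.lie_tmul_right, hv, hb1, TensorProduct.smul_tmul,
      TensorProduct.tmul_smul, TensorProduct.tmul_smul, ← add_smul]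
    congr 1
    rw [← Finset.sum_add_distrib]
    refine Finset.sum_congr rfl fun i _ => ?_
    rw [Pi.add_apply]
    push_cast
    ring
  refine ⟨u1, hu1, hw_of_posS hwt fun p hp => ?_⟩
  rcases (posS_nu hnu p hp).2 with hp' | hp'
  · have := proj_keep hU _ h1 h2 (x := p.1) (s := 0) (by
      rw [← e, TensorProduct.LieModule.lie_tmul_right, hL _ hp', hb2 _ hp'.pos]; simp)
    rwa [zero_smul] at this
  by_contra hne
  obtain ⟨z, w, hw0, hz, ⟨hwe, hwd⟩, hw⟩ := extremal (posS n) _ posS_ht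
    (fun z u => u ∈ eig (n := n) (E := E ⊗[ℂ] F) (t : ℂ) ∧ dot nu (nu' + mu) + 1 ≤ dot nu z)
    (fun q hq z u h => ⟨LieSubmodule.lie_mem _ h.1, by
      rw [dot_add nu z]; linarith [(posS_nu hnu q hq).1, h.2]⟩)
    hne (hwt.lie (posS_ht p hp).1) ⟨LieSubmodule.lie_mem _ h1, by
      rw [dot_add nu (nu' + mu)]; linarith⟩
  have hw' := hw_of_posS hz hw
  have e1 := eig_hw hU hw0 hw' (mem_eig.1 hwe)
  have e2 : Kb ≤ cr (z - nu') := hKb ⟨z - nu', ⟨pr E b w,
    pr_ne hF hb0 hb hw0 ((isHW_iff _ w).1 hw').2, pr_wt hF hb1 hz⟩, rfl⟩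
  have e3 := cr_add nu' (z - nu')
  rw [add_sub_cancel] at e3
  have e4 : dot nu' mu + k ≤ dot nu' (z - nu') := by
    rw [hnu', dot_smul, dot_smul, dot_sub]
    rw [dot_add] at hwd
    have : (0 : ℚ) ≤ k := Nat.cast_nonneg k
    nlinarith
  have e5 : (dot nu' mu : ℝ) + k ≤ (dot nu' (z - nu') : ℝ) := by exact_mod_cast e4
  have e6 : (k0 : ℝ) ≤ k := by exact_mod_cast hk
  linarith

end Vale.Agent.N182
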