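import Vale.Agent.N182.C
import Vale.Agent.P182.H55.AllM
import Vale.Agent.P182.H810.GlueAll
import Mathlib.LinearAlgebra.Contraction

/-!
# P182, Levi branching: duals and the saturation theorem for Lie algebra modules
-/

namespace Vale.Agent.N182

open Vale.Agent.P182
open scoped InnerProductSpace TensorProduct ComplexConjugate

attribute [local instance 100] LieRing.ofAssociativeRing

set_option linter.all false

variable {n : ℕ}

/-- unitary irreducible models -/
theorem exists_U {lam : Fin n → ℚ} (hl : IsDominant lam) :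
    ∃ (E : Type) (_ : NormedAddCommGroup E) (_ : InnerProductSpace ℂ E)
      (_ : FiniteDimensional ℂ E) (_ : LieRingModule (so n) E) (_ : LieModule ℂ (so n) E)
      (_ : LieModule.IsIrreducible ℂ (so n) E), IsUnitary (tau (n := n)) E ∧
      ∃ v : E, v ≠ 0 ∧ IsHW (triD n) (chi lam) v := by
  obtain ⟨E, _, _, _, _, _, u, -, a, z, H⟩ := exists_model hl
  refine ⟨(cyc (triD n) H).toSubmodule, inferInstance, inferInstance, inferInstance,
    (inferInstance : LieRingModule (so n) (cyc (triD n) H)),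
    (inferInstance : LieModule ℂ (so n) (cyc (triD n) H)),
    cyc_irred u tau_tau (triD n) H z, fun x p q => u x p q, ⟨a, self_mem_cyc _ H⟩,
    fun h => z (congrArg Subtype.val h), fun b hb => Subtype.ext (H b hb)⟩

section general

variable {L : Type*} [LieRing L] [LieAlgebra ℂ L]
variable {V W A B : Type*} [AddCommGroup V] [Module ℂ V] [LieRingModule L V] [LieModule ℂ L V]
  [AddCommGroup W] [Module ℂ W] [LieRingModule L W] [LieModule ℂ L W]
  [AddCommGroup A] [Module ℂ A] [LieRingModule L A] [LieModule ℂ L A]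
  [AddCommGroup B] [Module ℂ B] [LieRingModule L B] [LieModule ℂ L B]

theorem dual_irred [FiniteDimensional ℂ V] [LieModule.IsIrreducible ℂ L V] :
    LieModule.IsIrreducible ℂ L (Module.Dual ℂ V) := by
  haveI : Nontrivial V := LieModule.nontrivial_of_isIrreducible ℂ L V
  refine LieModule.IsIrreducible.mk fun K hK => ?_
  let K' : LieSubmodule ℂ L V :=
    { K.toSubmodule.dualCoannihilator with
      lie_mem := by
        intro x m hm
        have hm' : m ∈ K.toSubmodule.dualCoannihilator := hm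
        show ⁅x, m⁆ ∈ K.toSubmodule.dualCoannihilator
        rw [Submodule.mem_dualCoannihilator] at hm' ⊢
        intro φ hφ
        have := hm' _ (K.lie_mem (x := x) hφ)
        rw [Module.Dual.lie_apply] at this
        exact neg_eq_zero.1 this }
  have e : K.toSubmodule.dualCoannihilator.dualAnnihilator = K.toSubmodule :=
    Subspace.dualCoannihilator_dualAnnihilator_eq
  rcases IsSimpleOrder.eq_bot_or_eq_top K' with h | h
  · have h' : K.toSubmodule.dualCoannihilator = ⊥ := congrArg LieSubmodule.toSubmodule h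
    rw [h', Submodule.dualAnnihilator_bot] at e
    exact LieSubmodule.toSubmodule_injective e.symm
  · have h' : K.toSubmodule.dualCoannihilator = ⊤ := congrArg LieSubmodule.toSubmodule h
    rw [h', Submodule.dualAnnihilator_top] at e
    exact absurd (LieSubmodule.toSubmodule_injective e.symm) hK

theorem hom_hw [LieModule.IsIrreducible ℂ L V] (T : Tri L) {χ : L → ℂ} {v : V} (hv0 : v ≠ 0)
    (hv : IsHW T χ v) {Φ : V →ₗ[ℂ] W} (h0 : Φ ≠ 0) (h : ∀ (x : L) u, Φ ⁅x, u⁆ = ⁅x, Φ u⁆) :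
    Φ v ≠ 0 ∧ IsHW T χ (Φ v) := by
  refine ⟨fun e => h0 (LinearMap.ext fun m => ?_), fun b hb => by rw [← h, hv b hb, map_smul]⟩
  let K : LieSubmodule ℂ L V :=
    { LinearMap.ker Φ with
      lie_mem := by
        intro x m hm
        have hm' : Φ m = 0 := hm
        show Φ ⁅x, m⁆ = 0
        rw [h, hm', lie_zero] }
  exact mem_of_irred (K := K) e hv0 m

/-- contraction -/
noncomputable def ctr (V A B : Type*) [AddCommGroup V] [Module ℂ V] [FiniteDimensional ℂ V]
    [AddCommGroup A] [Module ℂ A] [AddCommGroup B] [Module ℂ B] :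
    (A ⊗[ℂ] (B ⊗[ℂ] Module.Dual ℂ V)) ≃ₗ[ℂ] (V →ₗ[ℂ] A ⊗[ℂ] B) :=
  (TensorProduct.assoc ℂ A B (Module.Dual ℂ V)).symm ≪≫ₗ TensorProduct.comm ℂ _ _ ≪≫ₗ
    dualTensorHomEquiv ℂ V (A ⊗[ℂ] B)

theorem ctr_tmul [FiniteDimensional ℂ V] (a : A) (b : B) (φ : Module.Dual ℂ V) (u : V) :
    ctr V A B (a ⊗ₜ[ℂ] (b ⊗ₜ[ℂ] φ)) u = φ u • (a ⊗ₜ[ℂ] b) := by
  simp [ctr, dualTensorHomEquiv]

theorem ctr_lie [FiniteDimensional ℂ V] (x : L) (t : A ⊗[ℂ] (B ⊗[ℂ] Module.Dual ℂ V)) (u : V) :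
    ctr V A B ⁅x, t⁆ u = ⁅x, ctr V A B t u⁆ - ctr V A B t ⁅x, u⁆ := by
  induction t using TensorProduct.induction_on with
  | zero => simp
  | add s t h1 h2 =>
    simp only [lie_add, map_add, LinearMap.add_apply, h1, h2]
    abel
  | tmul a s =>
    induction s using TensorProduct.induction_on with
    | zero => simp
    | add s t h1 h2 =>
      simp only [TensorProduct.tmul_add, lie_add, map_add, LinearMap.add_apply, h1, h2]
      abel
    | tmul b φ =>
      simp only [TensorProduct.LieModule.lie_tmul_right, TensorProduct.tmul_add, map_add,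
        LinearMap.add_apply, ctr_tmul, lie_smul, Module.Dual.lie_apply, smul_add, neg_smul]
      abel

end general

section

variable {V A B : Type*} [AddCommGroup V] [Module ℂ V] [LieRingModule (so n) V]
  [LieModule ℂ (so n) V] [AddCommGroup A] [Module ℂ A] [LieRingModule (so n) A]
  [LieModule ℂ (so n) A] [AddCommGroup B] [Module ℂ B] [LieRingModule (so n) B]
  [LieModule ℂ (so n) B]

theorem hasInv_iff : HasInvariants (n := n) A B V ↔
    ∃ t : A ⊗[ℂ] (B ⊗[ℂ] V), t ≠ 0 ∧ ∀ x : so n, ⁅x, t⁆ = 0 := by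
  rw [HasInvariants, Ne, LieSubmodule.eq_bot_iff]
  push Not
  simp only [LieModule.mem_maxTrivSubmodule]
  exact exists_congr fun t => and_comm

theorem hasInv_dual_iff [FiniteDimensional ℂ V] :
    HasInvariants (n := n) A B (Module.Dual ℂ V) ↔
      ∃ Φ : V →ₗ[ℂ] A ⊗[ℂ] B, Φ ≠ 0 ∧ ∀ (x : so n) u, Φ ⁅x, u⁆ = ⁅x, Φ u⁆ := by
  rw [hasInv_iff]
  constructor
  · rintro ⟨t, h0, ht⟩
    refine ⟨ctr V A B t, fun e => h0 ((ctr V A B).map_eq_zero_iff.1 e), fun x u => ?_⟩
    have := ctr_lie x t u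
    rw [ht, map_zero, LinearMap.zero_apply] at this
    exact (sub_eq_zero.1 this.symm).symm
  · rintro ⟨Φ, h0, h⟩
    refine ⟨(ctr V A B).symm Φ, fun e => h0 ((ctr V A B).symm.map_eq_zero_iff.1 e), fun x => ?_⟩
    rw [← (ctr V A B).map_eq_zero_iff]
    ext u
    rw [ctr_lie, LinearEquiv.apply_symm_apply, h, sub_self, LinearMap.zero_apply]

end

theorem Q_add {a b : Fin n → ℚ} (ha : InRootLattice a) (hb : InRootLattice b) :
    InRootLattice (a + b) := by
  obtain ⟨x, hx, ex⟩ := ha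
  obtain ⟨y, hy, ey⟩ := hb
  refine ⟨x + y, fun i => by simp [hx, hy], ?_⟩
  simp only [Pi.add_apply, Finset.sum_add_distrib]
  exact ex.add ey

theorem Q_zero : InRootLattice (0 : Fin n → ℚ) := ⟨0, fun i => by simp, by simp⟩

theorem Q_smul {a : Fin n → ℚ} (ha : InRootLattice a) (k : ℕ) :
    InRootLattice fun i => (k : ℚ) * a i := by
  obtain ⟨x, hx, ex⟩ := ha
  refine ⟨fun i => k * x i, fun i => by simp [hx], ?_⟩
  rw [← Finset.mul_sum]
  exact ex.mul_left _

theorem Q_neg_root : ∀ p ∈ negS n, InRootLattice (-p.2) := by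
  rintro p ⟨i, j, h, rfl | rfl⟩
  · refine ⟨Pi.single i 1 - Pi.single j 1, fun k => ?_, ?_⟩
    · simp [Pi.single_apply]
    · simp [Finset.sum_sub_distrib]
  · refine ⟨Pi.single i 1 + Pi.single j 1, fun k => ?_, ?_⟩
    · simp [Pi.single_apply]
    · simp [Finset.sum_add_distrib]

/-- integrality of weights -/
def Intg (z : Fin n → ℚ) : Prop := (∀ i, ∃ k : ℤ, z i = k) ∨ (∀ i, ∃ k : ℤ, z i = k + 1 / 2)

theorem Intg.neg {a : Fin n → ℚ} (h : Intg a) : Intg (-a) := by
  rcases h with h | h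
  · refine Or.inl fun i => ?_
    obtain ⟨k, hk⟩ := h i
    exact ⟨-k, by rw [Pi.neg_apply, hk]; push_cast; ring⟩
  · refine Or.inr fun i => ?_
    obtain ⟨k, hk⟩ := h i
    exact ⟨-k - 1, by rw [Pi.neg_apply, hk]; push_cast; ring⟩

theorem Intg.add {a b : Fin n → ℚ} (ha : Intg a) (hb : Intg b) : Intg (a + b) := by
  rcases ha with ha | ha <;> rcases hb with hb | hb
  · refine Or.inl fun i => ?_
    obtain ⟨k, hk⟩ := ha i
    obtain ⟨l, hl⟩ := hb i
    exact ⟨k + l, by rw [Pi.add_apply, hk, hl]; push_cast; ring⟩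
  · refine Or.inr fun i => ?_
    obtain ⟨k, hk⟩ := ha i
    obtain ⟨l, hl⟩ := hb i
    exact ⟨k + l, by rw [Pi.add_apply, hk, hl]; push_cast; ring⟩
  · refine Or.inr fun i => ?_
    obtain ⟨k, hk⟩ := ha i
    obtain ⟨l, hl⟩ := hb i
    exact ⟨k + l, by rw [Pi.add_apply, hk, hl]; push_cast; ring⟩
  · refine Or.inl fun i => ?_
    obtain ⟨k, hk⟩ := ha i
    obtain ⟨l, hl⟩ := hb i
    exact ⟨k + l + 1, by rw [Pi.add_apply, hk, hl]; push_cast; ring⟩

theorem Intg.of_Q {a : Fin n → ℚ} (h : InRootLattice a) : Intg a := by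
  obtain ⟨x, hx, -⟩ := h
  exact Or.inl fun i => ⟨x i, hx i⟩

section unitary

variable {E : Type*} [NormedAddCommGroup E] [InnerProductSpace ℂ E] [FiniteDimensional ℂ E]
  [LieRingModule (so n) E] [LieModule ℂ (so n) E]

/-- the highest weight of the dual -/
theorem dual_hw (hE : IsUnitary (tau (n := n)) E) {eta : Fin n → ℚ} (he : Intg eta) {v : E}
    (hv0 : v ≠ 0) (hv : IsHW (triD n) (chi eta) v) :
    ∃ ze : Fin n → ℚ, IsDominant ze ∧ InRootLattice (eta + ze) ∧
      HasHighestWeight ze (Module.Dual ℂ E) := by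
  obtain ⟨z, w, hw0, hz, hQ, hw⟩ := extremal (negS n) _ negS_ht
    (fun z (_ : E) => InRootLattice (eta - z))
    (fun p hp z u h => by
      have := Q_add h (Q_neg_root p hp)
      convert this using 1
      abel)
    hv0 ((isHW_iff _ v).1 hv).1 (by rw [sub_self]; exact Q_zero)
  refine ⟨-z, ⟨?_, fun i j h => dom_of_lw hE hw0 hz hw h⟩, by rwa [← sub_eq_add_neg],
    (innerSL ℂ w).toLinearMap, fun e => ?_, fun a => ?_, fun x hx => ?_⟩
  · have := (Intg.of_Q hQ).add he.neg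
    have e : eta - z + -eta = -z := by abel
    rwa [e] at this
  · have := congrArg (fun φ : E →ₗ[ℂ] ℂ => φ w) e
    exact hw0 (inner_self_eq_zero.1 this)
  · ext u
    rw [Module.Dual.lie_apply]
    show -⟪w, ⁅cartan a, u⁆⟫_ℂ = _ * ⟪w, u⟫_ℂ
    have h1 := hE (tau (cartan a)) w u
    rw [tau_tau] at h1
    rw [← h1, tau_cartan, hz, inner_smul_left, map_sum, ← neg_mul, ← Finset.sum_neg_distrib]
    congr 1
    refine Finset.sum_congr rfl fun i _ => ?_
    simp
  · ext u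
    rw [Module.Dual.lie_apply]
    show -⟪w, ⁅x, u⁆⟫_ℂ = 0
    rw [neg_eq_zero]
    refine pos_ind (P := fun x => ⟪w, ⁅x, u⁆⟫_ℂ = 0) (by simp) (fun x y h1 h2 => ?_)
      (fun c x h1 => ?_) (fun i j h => ?_) (fun i j h => ?_) hx
    · rw [add_lie, inner_add_right, h1, h2, add_zero]
    · rw [smul_lie, inner_smul_right, h1, mul_zero]
    · have h1 := hE (eA j i) w u
      rw [tau_eA, hw _ ⟨i, j, h, Or.inl rfl⟩, inner_zero_left] at h1
      exact h1.symm
    · have h1 := hE (eC j i) w u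
      rw [tau_eC, hw _ ⟨i, j, h, Or.inr rfl⟩, inner_zero_left] at h1
      exact h1.symm

theorem triv_of_zero (hE : IsUnitary (tau (n := n)) E) [LieModule.IsIrreducible ℂ (so n) E] {v : E}
    (hv0 : v ≠ 0) (hv : IsHW (triD n) (chi 0) v) (x : so n) (c : E) : ⁅x, c⁆ = 0 := by
  obtain ⟨h1, h2⟩ := (isHW_iff _ v).1 hv
  have h : v ∈ LieModule.maxTrivSubmodule ℂ (so n) E := by
    rw [LieModule.mem_maxTrivSubmodule]
    intro x
    obtain ⟨y, hy, b, hb, rfl⟩ := decomp (triD n) x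
    rw [add_lie, hv b hb, show chi (0 : Fin n → ℚ) b = 0 by simp [chi], zero_smul, add_zero]
    induction hy using Submodule.span_induction with
    | mem y hy =>
      have := norm_tau hE (h2 _ (tau_N_pos hy))
      rw [tau_tau, hw_inner hE hv, show chi (0 : Fin n → ℚ) _ = 0 by simp [chi], zero_mul] at this
      exact inner_self_eq_zero.1 this
    | zero => simp
    | add x y _ _ a b => rw [add_lie, a, b, add_zero]
    | smul a x _ b => rw [smul_lie, b, smul_zero]
  exact (LieModule.mem_maxTrivSubmodule ℂ (so n) E c).1 (mem_of_irred h hv0 c) x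

end unitary

theorem dom_zero : IsDominant (0 : Fin n → ℚ) := ⟨Or.inl fun i => ⟨0, by simp⟩, by simp⟩

theorem tmul_ne {E F : Type*} [NormedAddCommGroup E] [InnerProductSpace ℂ E]
    [NormedAddCommGroup F] [InnerProductSpace ℂ F] {v : E} {w : F} (hv : v ≠ 0) (hw : w ≠ 0) :
    v ⊗ₜ[ℂ] w ≠ 0 := by
  intro h0
  have h1 : ⟪v ⊗ₜ[ℂ] w, v ⊗ₜ[ℂ] w⟫_ℂ = 0 := by rw [h0, inner_zero_left]
  rw [TensorProduct.inner_tmul, mul_eq_zero] at h1
  rcases h1 with h1 | h1
  · exact hv (inner_self_eq_zero.mp h1)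
  · exact hw (inner_self_eq_zero.mp h1)

theorem hhw {V : Type*} [AddCommGroup V] [Module ℂ V] [LieRingModule (so n) V]
    [LieModule ℂ (so n) V] {z : Fin n → ℚ} {v : V} (h0 : v ≠ 0) (h : IsHW (triD n) (chi z) v) :
    HasHighestWeight z V := ⟨v, h0, (isHW_iff z v).1 h⟩

/-- the highest weight of the dual of `V(N eta)` -/
theorem dual_hw_mul (hn : 2 ≤ n) {eta : Fin n → ℚ} (he : IsDominant eta) :
    ∃ ze : Fin n → ℚ, IsDominant ze ∧ InRootLattice (eta + ze) ∧ ∀ N : ℕ, 1 ≤ N →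
      ∀ (E : Type) [NormedAddCommGroup E] [InnerProductSpace ℂ E] [FiniteDimensional ℂ E]
        [LieRingModule (so n) E] [LieModule ℂ (so n) E] [LieModule.IsIrreducible ℂ (so n) E],
        IsUnitary (tau (n := n)) E → HasHighestWeight (fun i => (N : ℚ) * eta i) E →
        HasHighestWeight (fun i => (N : ℚ) * ze i) (Module.Dual ℂ E) := by
  obtain ⟨U, _, _, _, _, _, _, hU, v, hv0, hv⟩ := exists_U he
  obtain ⟨T, _, _, _, _, _, _, hT, c, hc0, hc⟩ := exists_U (dom_zero (n := n))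
  obtain ⟨ze, hze, hQ, hD⟩ := dual_hw hU he.1 hv0 hv
  refine ⟨ze, hze, hQ, fun N hN E _ _ _ _ _ _ hE hEw => ?_⟩
  haveI := dual_irred (L := so n) (V := U)
  have h1 : HasInvariants (n := n) U T (Module.Dual ℂ U) := by
    refine hasInv_dual_iff.2 ⟨(TensorProduct.mk ℂ U T).flip c, fun e => ?_, fun x u => ?_⟩
    · exact tmul_ne hv0 hc0 (congrArg (fun φ : U →ₗ[ℂ] U ⊗[ℂ] T => φ v) e)
    · show ⁅x, u⁆ ⊗ₜ[ℂ] c = ⁅x, u ⊗ₜ[ℂ] c⁆
      rw [TensorProduct.LieModule.lie_tmul_right, triv_of_zero hT hc0 hc,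
        TensorProduct.tmul_zero, add_zero]
  obtain ⟨W, _, _, _, _, _, _, hW, d, hd0, hd⟩ := exists_U (hze.smul N)
  have hd3 : ∀ s, IsDominant (![eta, 0, ze] s) := by
    intro s
    fin_cases s
    · exact he
    · exact dom_zero
    · exact hze
  have h0 : (fun i => (N : ℚ) * (0 : Fin n → ℚ) i) = 0 := by funext i; simp
  have h2 : HasInvariants (n := n) E T W :=
    H55.hasInvariants_mul hn (lam := ![eta, 0, ze]) hd3 hN (hhw hv0 hv) (hhw hc0 hc) hD hEw
      (by
        show HasHighestWeight (fun i => (N : ℚ) * (0 : Fin n → ℚ) i) T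
        rw [h0]
        exact hhw hc0 hc) (hhw hd0 hd) h1
  obtain ⟨t, ht0, ht⟩ := hasInv_iff.1 h2
  obtain ⟨g, hg, hgt⟩ := functional_of_invariant
    (isUnitary_tensor hE (isUnitary_tensor hT hW)) t ht tau_tau ht0
  obtain ⟨a, c', d', hne⟩ : ∃ a c' d', g (a ⊗ₜ[ℂ] (c' ⊗ₜ[ℂ] d')) ≠ 0 := by
    by_contra hcon
    push Not at hcon
    have : g = 0 := by
      ext a c' d'
      exact hcon a c' d'
    rw [this] at hgt
    exact hgt rfl
  let ψ : W →ₗ[ℂ] Module.Dual ℂ E :=
    (((TensorProduct.mk ℂ E (T ⊗[ℂ] W)).compr₂ g).flip) ∘ₗ TensorProduct.mk ℂ T W c'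
  have hψ : ∀ d u, ψ d u = g (u ⊗ₜ[ℂ] (c' ⊗ₜ[ℂ] d)) := fun _ _ => rfl
  obtain ⟨e1, e2⟩ := hom_hw (triD n) hd0 hd (Φ := ψ)
    (fun e => hne (by rw [← hψ, e]; rfl)) (fun x d => by
      ext u
      have := hg x (u ⊗ₜ[ℂ] (c' ⊗ₜ[ℂ] d))
      rw [TensorProduct.LieModule.lie_tmul_right, TensorProduct.LieModule.lie_tmul_right,
        triv_of_zero hT hc0 hc, TensorProduct.zero_tmul, zero_add, map_add] at this
      rw [Module.Dual.lie_apply, hψ, hψ]
      linear_combination this)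
  exact hhw e1 e2

/-- `V` has a highest weight vector of weight `mu` for the Levi subalgebra centralising `nu`. -/
def LHW (nu mu : Fin n → ℚ) (V : Type*) [AddCommGroup V] [Module ℂ V]
    [LieRingModule (so n) V] : Prop :=
  ∃ v : V, v ≠ 0 ∧ (∀ a : Fin n → ℂ, ⁅cartan a, v⁆ = (∑ i, (mu i : ℂ) * a i) • v) ∧
    ∀ x, LRoot nu x → ⁅x, v⁆ = 0

theorem LHW.congr {V W : Type*} [AddCommGroup V] [Module ℂ V] [LieRingModule (so n) V]
    [LieModule ℂ (so n) V] [AddCommGroup W] [Module ℂ W] [LieRingModule (so n) W]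
    [LieModule ℂ (so n) W] [LieModule.IsIrreducible ℂ (so n) V]
    [LieModule.IsIrreducible ℂ (so n) W] {lam nu mu : Fin n → ℚ} (hV : HasHighestWeight lam V)
    (hW : HasHighestWeight lam W) (h : LHW nu mu V) : LHW nu mu W := by
  obtain ⟨a, ha0, ha⟩ := hV
  obtain ⟨b, hb0, hb⟩ := hW
  obtain ⟨T⟩ := equiv_of_hw (triD n) ((isHW_iff lam a).2 ha) ((isHW_iff lam b).2 hb) ha0 hb0
  obtain ⟨v, h0, h1, h2⟩ := h
  refine ⟨T.toLieModuleHom v, fun e => h0 (T.toLinearEquiv.map_eq_zero_iff.1 e), fun a => ?_,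
    fun x hx => ?_⟩
  · rw [← T.toLieModuleHom.map_lie (cartan a) v, h1]
    exact T.toLinearEquiv.map_smul _ _
  · rw [← T.toLieModuleHom.map_lie x v, h2 x hx]
    exact T.toLinearEquiv.map_zero

/-- **Saturation for branching to Levi subalgebras.** -/
theorem levi_lie (hn : 2 ≤ n) {nu lam mu : Fin n → ℚ} (hnu : IsDominant nu)
    (hlam : IsDominant lam) (hQ : InRootLattice (lam - mu)) {N M : ℕ} (hN : 1 ≤ N) (hM : 1 ≤ M)
    {W V : Type*} [AddCommGroup W] [Module ℂ W] [LieRingModule (so n) W] [LieModule ℂ (so n) W]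
    [AddCommGroup V] [Module ℂ V] [LieRingModule (so n) V] [LieModule ℂ (so n) V]
    [LieModule.IsIrreducible ℂ (so n) W] [LieModule.IsIrreducible ℂ (so n) V]
    (hW : HasHighestWeight (fun i => (N : ℚ) * lam i) W)
    (hV : HasHighestWeight (fun i => (M : ℚ) * lam i) V)
    (h : LHW nu (fun i => (N : ℚ) * mu i) W) : LHW nu (fun i => (M : ℚ) * mu i) V := by
  obtain ⟨A', _, _, _, _, _, _, hA', a', ha0', ha'⟩ := exists_U (hlam.smul N)
  obtain ⟨A, _, _, _, _, _, _, hA, a, ha0, ha⟩ := exists_U (hlam.smul M)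
  refine LHW.congr (hhw ha0 ha) hV ?_
  obtain ⟨v, hv0, hv, hL⟩ := h.congr hW (hhw ha0' ha')
  obtain ⟨k, hk⟩ := up hA' hnu hv0 hv hL
  have hnk := hnu.smul k
  have eN : ∀ K : ℕ, (fun i => (K : ℚ) * ((k : ℚ) * nu i)) = fun i => ((K * k : ℕ) : ℚ) * nu i :=
    fun K => by
      funext i
      push_cast
      ring
  obtain ⟨B', _, _, _, _, _, _, hB', b', hb0', hb'⟩ := exists_U (hnu.smul (N * k))
  obtain ⟨B, _, _, _, _, _, _, hB, b, hb0, hb⟩ := exists_U (hnu.smul (M * k))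
  obtain ⟨w', hw0', hw'⟩ := hk (N * k) (Nat.le_mul_of_pos_left k hN) B' hB' b' hb0' hb'
  set eta : Fin n → ℚ := (fun i => (k : ℚ) * nu i) + mu with heta
  have eE : ∀ K : ℕ, ((fun i => ((K * k : ℕ) : ℚ) * nu i) + fun i => (K : ℚ) * mu i) =
      fun i => (K : ℚ) * eta i := fun K => by
    funext i
    simp only [heta, Pi.add_apply]
    push_cast
    ring
  rw [eE] at hw'
  have hAB' := isUnitary_tensor hA' hB'
  have he : IsDominant eta := by
    refine ⟨Intg.add hnk.1 ?_, fun i j hij => ?_⟩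
    · have := Intg.add hlam.1 (Intg.of_Q hQ).neg
      have e : lam + -(lam - mu) = mu := by abel
      rwa [e] at this
    · have := dom_of_hw hAB' hw0' hw' hij
      rw [abs_mul, Nat.abs_cast] at this
      have hN' : (0 : ℚ) < N := by exact_mod_cast hN
      exact le_of_mul_le_mul_left this hN'
  obtain ⟨ze, hze, hQ', hD⟩ := dual_hw_mul hn he
  obtain ⟨U', _, _, _, _, _, _, hU', u', hu0', hu'⟩ := exists_U (he.smul N)
  obtain ⟨U, _, _, _, _, _, _, hU, u, hu0, hu⟩ := exists_U (he.smul M)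
  haveI := dual_irred (L := so n) (V := U')
  haveI := dual_irred (L := so n) (V := U)
  obtain ⟨j, hj, -⟩ := exists_embed hAB' tau_tau (triD n) hw' hw0' hu' hu0'
  have h1 : HasInvariants (n := n) A' B' (Module.Dual ℂ U') := by
    refine hasInv_dual_iff.2 ⟨j, fun e => hu0' (hj ?_), fun x u => j.map_lie x u⟩
    rw [map_zero]
    exact congrArg (fun φ : U' →ₗ[ℂ] A' ⊗[ℂ] B' => φ u') e
  have hQ2 : InRootLattice (lam + (fun i => (k : ℚ) * nu i) + ze) := by
    have := Q_add hQ hQ'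
    convert this using 1
    rw [heta]
    abel
  have h2 : HasInvariants (n := n) A B (Module.Dual ℂ U) :=
    H55.allMultiples_of_glueAll H810.glueAll' hn hlam hnk hze hQ2 hN hM (hhw ha0' ha')
      (by rw [eN]; exact hhw hb0' hb') (hD N hN U' hU' (hhw hu0' hu')) (hhw ha0 ha)
      (by rw [eN]; exact hhw hb0 hb) (hD M hM U hU (hhw hu0 hu)) h1
  obtain ⟨Φ, hΦ0, hΦ⟩ := hasInv_dual_iff.1 h2
  obtain ⟨e1, e2⟩ := hom_hw (triD n) hu0 hu hΦ0 hΦ
  obtain ⟨v1, f0, f1, f2⟩ := down hB hb0 hb e1 e2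
  refine ⟨v1, f0, ?_, f2⟩
  rw [← eE, add_sub_cancel_left] at f1
  exact f1

end Vale.Agent.N182
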