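import Vale.Agent.P182G.St2

/-!
# P182: highest weight vectors for Levi subgroups of `Spin(2n)`
-/

namespace Vale.Agent.N182

open Vale.Agent.P182S

variable {n : ℕ} {A : Type} [Ring A] [Algebra ℂ A] {V : Type*} [AddCommGroup V] [Module ℂ V]

/-- `x` lies in a positive root subgroup of the Levi subgroup `L_nu`, whose roots are the roots
orthogonal to `nu`: `x = 1 + t e_i f_j` with `nu_i - nu_j = 0` or `x = 1 + t e_i e_j` with
`nu_i + nu_j = 0`, `i < j`. -/
def IsLeviRoot (e f : Fin n → A) (nu : Fin n → ℚ) (x : A) : Prop :=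
  ∃ (i j : Fin n) (t : ℂ), i < j ∧
    ((nu i - nu j = 0 ∧ x = 1 + t • (e i * f j)) ∨ (nu i + nu j = 0 ∧ x = 1 + t • (e i * e j)))

/-- `ρ` has an `L_nu`-highest weight vector of weight `mu`: the torus acts on it by the character
`mu`, and the positive root subgroups of `L_nu` fix it.  So the irreducible representation of
`L_nu` with highest weight `mu` occurs in the restriction of `ρ` to `L_nu`. -/
def LeviHighest (G : Submonoid A) (e f : Fin n → A) (nu mu : Fin n → ℚ)
    (ρ : Representation ℂ G V) : Prop :=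
  ∃ v : V, v ≠ 0 ∧
    (∀ i, ∃ k : ℤ, (k : ℚ) = 2 * mu i ∧
      ∀ (s : ℂˣ) (g : G), (g : A) = tor (e i) (f i) s → ρ g v = (s : ℂ) ^ k • v) ∧
    ∀ g : G, IsLeviRoot e f nu (g : A) → ρ g v = v

end Vale.Agent.N182
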