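import Vale.Agent.N182.D
import Vale.Agent.N182.Defs
import Vale.Agent.P182G84.Br2
import Mathlib.Analysis.Calculus.MeanValue
import Mathlib.Analysis.SpecialFunctions.Complex.Log

/-!
# P182, Levi branching: the passage to the group
-/

namespace Vale.Agent.N182

open Vale.Agent.P182 Vale.Agent.P182G Vale.Agent.P182G78 CliffordAlgebra QuadraticMap

attribute [local instance 100] LieRing.ofAssociativeRing

set_option linter.all false

variable {n : ℕ}

theorem phi_X (p q : Fin n ⊕ Fin n) : phi n (X p q) = (1 / 2 : ℂ) •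
    (ι (Qs n) (bv p) * ι (Qs n) (bv q.swap) - ι (Qs n) (bv q.swap) * ι (Qs n) (bv p)) := by
  rw [phi_sum, X_val]
  congr 1
  simp [Matrix.single_apply, sub_smul, Finset.sum_sub_distrib, ite_and]

theorem phi_eA {i j : Fin n} (h : i ≠ j) : phi n (eA i j) = e i * f j := by
  have := phi_X (n := n) (Sum.inl i) (Sum.inl j)
  rw [Sum.swap_inl, anti (a := bv (Sum.inl i)) (m := bv (Sum.inr j)) (by rw [pb]; simp [h.symm]),
    sub_neg_eq_add, ← two_smul ℂ, smul_smul] at this
  norm_num at this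
  exact this

theorem phi_eB (i j : Fin n) : phi n (eB i j) = e i * e j := by
  have := phi_X (n := n) (Sum.inl i) (Sum.inr j)
  rw [Sum.swap_inr, anti (a := bv (Sum.inl i)) (m := bv (Sum.inl j)) (by rw [pb]; simp),
    sub_neg_eq_add, ← two_smul ℂ, smul_smul] at this
  norm_num at this
  exact this

theorem sq_zero {a m : Fin n ⊕ Fin n → ℂ} (hm : Qs n m = 0) (hp : polar (Qs n) a m = 0) :
    ι (Qs n) a * ι (Qs n) m * (ι (Qs n) a * ι (Qs n) m) = 0 := by
  have h0 : ι (Qs n) m * ι (Qs n) m = 0 := by rw [ι_sq_scalar, hm, map_zero]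
  rw [mul_assoc, ← mul_assoc (ι (Qs n) m), anti hp, neg_mul, mul_assoc, h0]
  simp

theorem lin_mul {Y : Cl n} (h : Y * Y = 0) (s t : ℂ) :
    1 + (s + t) • Y = (1 + s • Y) * (1 + t • Y) := by
  rw [add_mul, mul_add, mul_add, smul_mul_smul_comm, h, add_smul]
  simp [add_assoc, add_comm]

theorem tor_mul (i : Fin n) (s t : ℂˣ) : tor i (s * t) = tor i s * tor i t := by
  apply Subtype.ext
  have he : e i * e i = (0 : Cl n) := by
    rw [e, ι_sq_scalar, qb, map_zero]
  have hf : f i * f i = (0 : Cl n) := by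
    rw [f, ι_sq_scalar, qb, map_zero]
  have h := P182G.ef_add i
  have h1 : e i * f i * (f i * e i) = (0 : Cl n) := by
    rw [mul_assoc, ← mul_assoc (f i), hf, zero_mul, mul_zero]
  have h2 : f i * e i * (e i * f i) = (0 : Cl n) := by
    rw [mul_assoc, ← mul_assoc (e i), he, zero_mul, mul_zero]
  have h3 : e i * f i * (e i * f i) = (e i * f i : Cl n) := by
    have := congrArg (fun x => e i * f i * x) h
    simpa [mul_add, h1] using this
  have h4 : f i * e i * (f i * e i) = (f i * e i : Cl n) := by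
    have := congrArg (fun x => f i * e i * x) h
    simpa [mul_add, h2] using this
  show ((s * t : ℂˣ) : ℂ) • (e i * f i) + (((s * t)⁻¹ : ℂˣ) : ℂ) • (f i * e i) =
    ((s : ℂ) • (e i * f i) + ((s⁻¹ : ℂˣ) : ℂ) • (f i * e i)) *
      ((t : ℂ) • (e i * f i) + ((t⁻¹ : ℂˣ) : ℂ) • (f i * e i))
  simp only [add_mul, mul_add, smul_mul_smul_comm, h1, h2, h3, h4, smul_zero, add_zero, zero_add,
    mul_inv, Units.val_mul]

section
variable {V : Type*} [AddCommGroup V] [Module ℂ V] {ρ : Representation ℂ (Spin n) V}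
  {D : Cl n →ₗ[ℂ] Module.End ℂ V}

theorem int_eig (hD : IsD ρ D) {c : ℂ → Spin n} {Y : Cl n} (hc : Tan c Y)
    (hm : ∀ s t, c (s + t) = c s * c t) {v : V} {k : ℂ} (h : D Y v = k • v) (t : ℂ) :
    ρ (c t) v = Complex.exp (k * t) • v := by
  refine dual_ext fun φ => ?_
  have hF : ∀ t, HasDerivAt (fun s => φ (ρ (c s) v)) (k * φ (ρ (c t) v)) t := fun t => by
    have h1 := hD _ _ hc (φ ∘ₗ ρ (c t)) v
    simp only [LinearMap.comp_apply, h, map_smul, smul_eq_mul] at h1
    have h2 : HasDerivAt (fun s => φ (ρ (c t) (ρ (c s) v))) (k * φ (ρ (c t) v)) (t - t) := by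
      rwa [sub_self]
    have h3 := h2.comp_sub_const t t
    refine h3.congr_of_eventuallyEq (Filter.Eventually.of_forall fun s => ?_)
    beta_reduce
    rw [← Module.End.mul_apply, ← map_mul, ← hm, add_sub_cancel]
  have hG : ∀ t, HasDerivAt (fun s => Complex.exp (-k * s) * φ (ρ (c s) v)) 0 t := fun t => by
    have h1 := (((hasDerivAt_id' t).const_mul (-k)).cexp).fun_mul (hF t)
    exact h1.congr_deriv (by ring)
  have h0 := is_const_of_deriv_eq_zero (fun t => (hG t).differentiableAt)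
    (fun t => (hG t).deriv) t 0
  simp only [hc.1, mul_zero, Complex.exp_zero, one_mul, map_one, Module.End.one_apply] at h0
  rw [map_smul, smul_eq_mul, ← h0, ← mul_assoc, ← Complex.exp_add]
  simp

variable [LieRingModule (so n) V] [LieModule ℂ (so n) V]

theorem lhw_of_group (h : IsLie ρ) {nu mu : Fin n → ℚ}
    (hl : LeviHighest (P182S.Spin n) P182S.e P182S.f nu mu ρ) : LHW nu mu V := by
  obtain ⟨D, hD, hA⟩ := h
  obtain ⟨v, hv, ht, hr⟩ := hl
  refine ⟨v, hv, fun a => ?_, ?_⟩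
  · rw [hA, phi_cartan, map_sum, LinearMap.sum_apply, Finset.sum_smul]
    refine Finset.sum_congr rfl fun i _ => ?_
    obtain ⟨k, hk, hs⟩ := ht i
    have hk' : (k : ℂ) = 2 * (mu i : ℂ) := by exact_mod_cast hk
    rw [map_smul, LinearMap.smul_apply, der_tor hD fun s => hs s (tor i s) rfl, smul_smul, hk']
    congr 1
    ring
  · rintro x ⟨i, j, hij, ⟨e1, rfl⟩ | ⟨e1, rfl⟩⟩
    · rw [hA, phi_eA hij.ne]
      exact der_fix hD (tan_lin (c := rootSub hij) fun _ => rfl) fun t =>
        hr _ ⟨i, j, t, hij, Or.inl ⟨sub_eq_zero.2 e1, rfl⟩⟩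
    · rw [hA, phi_eB]
      exact der_fix hD (tan_lin (c := rootAdd hij) fun _ => rfl) fun t =>
        hr _ ⟨i, j, t, hij, Or.inr ⟨e1, rfl⟩⟩

theorem group_of_lhw (h : IsLie ρ) {nu mu : Fin n → ℚ} (hmu : Intg mu) (hl : LHW nu mu V) :
    LeviHighest (P182S.Spin n) P182S.e P182S.f nu mu ρ := by
  obtain ⟨D, hD, hA⟩ := h
  obtain ⟨v, hv, ht, hr⟩ := hl
  refine ⟨v, hv, fun i => ?_, ?_⟩
  · obtain ⟨k, hk⟩ : ∃ k : ℤ, (k : ℚ) = 2 * mu i := by
      rcases hmu with h | h
      · obtain ⟨k, hk⟩ := h i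
        exact ⟨2 * k, by rw [hk]; push_cast; ring⟩
      · obtain ⟨k, hk⟩ := h i
        exact ⟨2 * k + 1, by rw [hk]; push_cast; ring⟩
    refine ⟨k, hk, fun s g hg => ?_⟩
    obtain rfl : g = tor i s := Subtype.ext hg
    have hk' : (k : ℂ) = 2 * (mu i : ℂ) := by exact_mod_cast hk
    have h1 : D (e i * f i - f i * e i) v = (k : ℂ) • v := by
      have h2 := ht (Pi.single i 2)
      rw [hA, phi_cartan, Finset.sum_eq_single i, Finset.sum_eq_single i] at h2
      · simpa [hk', mul_comm] using h2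
      · intro j _ hj
        simp [hj]
      · simp
      · intro j _ hj
        simp [hj]
      · simp
    have h3 := int_eig hD (tan_tor i) (fun s t => by
      rw [← tor_mul]
      congr 1
      ext
      simp [Complex.exp_add]) h1 (Complex.log s)
    have h4 : Units.mk0 (Complex.exp (Complex.log s)) (Complex.exp_ne_zero _) = s := by
      ext
      simp [Complex.exp_log s.ne_zero]
    rw [h4, Complex.exp_int_mul, Complex.exp_log s.ne_zero] at h3
    exact h3
  · rintro g ⟨i, j, t, hij, ⟨e1, hg⟩ | ⟨e1, hg⟩⟩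
    · obtain rfl : g = rootSub hij t := Subtype.ext hg
      have h1 := hr _ ⟨i, j, hij, Or.inl ⟨sub_eq_zero.1 e1, rfl⟩⟩
      rw [hA, phi_eA hij.ne, ← zero_smul ℂ v] at h1
      have h2 := int_eig hD (tan_lin (c := rootSub hij) fun _ => rfl)
        (fun s t => Subtype.ext (lin_mul (sq_zero (qb _) (by rw [pb]; simp [hij.ne'])) s t)) h1 t
      rw [zero_mul, Complex.exp_zero, one_smul] at h2
      exact h2
    · obtain rfl : g = rootAdd hij t := Subtype.ext hg
      have h1 := hr _ ⟨i, j, hij, Or.inr ⟨e1, rfl⟩⟩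
      rw [hA, phi_eB, ← zero_smul ℂ v] at h1
      have h2 := int_eig hD (tan_lin (c := rootAdd hij) fun _ => rfl)
        (fun s t => Subtype.ext (lin_mul (sq_zero (qb _) (by rw [pb]; simp)) s t)) h1 t
      rw [zero_mul, Complex.exp_zero, one_smul] at h2
      exact h2

end

end Vale.Agent.N182
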