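import Vale.Agent.N182.E

/-!
# P182: saturation for `Spin(2n)`, tensor invariants and branching to Levi subgroups
-/

namespace Vale.Agent.N182

open Vale.Agent.P182 Vale.Agent.P182S

variable {n : ℕ}

theorem one_mul' (lam : Fin n → ℚ) : (fun i => ((1 : ℕ) : ℚ) * lam i) = lam := by
  funext i
  simp

theorem sat_group (hn : 2 ≤ n) {lam mu nu : Fin n → ℚ} (hlam : IsDominant lam)
    (hmu : IsDominant mu) (hnu : IsDominant nu) (hQ : InRootLattice (lam + mu + nu)) {N : ℕ}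
    (hN : 1 ≤ N) {W₁ W₂ W₃ V₁ V₂ V₃ : Type*}
    [AddCommGroup W₁] [Module ℂ W₁] [AddCommGroup W₂] [Module ℂ W₂] [AddCommGroup W₃]
    [Module ℂ W₃] [AddCommGroup V₁] [Module ℂ V₁] [AddCommGroup V₂] [Module ℂ V₂]
    [AddCommGroup V₃] [Module ℂ V₃] {σ₁ : Rp n W₁} {σ₂ : Rp n W₂} {σ₃ : Rp n W₃}
    {ρ₁ : Rp n V₁} {ρ₂ : Rp n V₂} {ρ₃ : Rp n V₃}
    (s₁ : IsV (fun i => N * lam i) σ₁) (s₂ : IsV (fun i => N * mu i) σ₂)
    (s₃ : IsV (fun i => N * nu i) σ₃) (r₁ : IsV lam ρ₁) (r₂ : IsV mu ρ₂) (r₃ : IsV nu ρ₃)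
    (h : HasInv σ₁ σ₂ σ₃) : HasInv ρ₁ ρ₂ ρ₃ := by
  obtain ⟨_, _, _, _, a₁, hW₁⟩ := ((isV_iff _ _).1 s₁).lie hn
  obtain ⟨_, _, _, _, a₂, hW₂⟩ := ((isV_iff _ _).1 s₂).lie hn
  obtain ⟨_, _, _, _, a₃, hW₃⟩ := ((isV_iff _ _).1 s₃).lie hn
  obtain ⟨_, _, _, _, b₁, hV₁⟩ := ((isV_iff _ _).1 r₁).lie hn
  obtain ⟨_, _, _, _, b₂, hV₂⟩ := ((isV_iff _ _).1 r₂).lie hn
  obtain ⟨_, _, _, _, b₃, hV₃⟩ := ((isV_iff _ _).1 r₃).lie hn
  exact (P182G.inv_iff hn b₁ b₂ b₃).2 (H55.allMultiples_of_glueAll H810.glueAll' hn hlam hmu hnu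
    hQ hN le_rfl hW₁ hW₂ hW₃ (by rwa [one_mul']) (by rwa [one_mul']) (by rwa [one_mul'])
    ((P182G.inv_iff hn a₁ a₂ a₃).1 h))

theorem levi_group (hn : 2 ≤ n) {nu lam mu : Fin n → ℚ} (hnu : IsDominant nu)
    (hlam : IsDominant lam) (hQ : InRootLattice (lam - mu)) {N : ℕ} (hN : 1 ≤ N) {W V : Type*}
    [AddCommGroup W] [Module ℂ W] [AddCommGroup V] [Module ℂ V] {σ : Rp n W} {ρ : Rp n V}
    (s : IsV (fun i => N * lam i) σ) (r : IsV lam ρ)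
    (h : LeviHighest (Spin n) e f nu (fun i => N * mu i) σ) :
    LeviHighest (Spin n) e f nu mu ρ := by
  obtain ⟨_, _, _, _, a, hW⟩ := ((isV_iff _ _).1 s).lie hn
  obtain ⟨_, _, _, _, b, hV⟩ := ((isV_iff _ _).1 r).lie hn
  have hmu : Intg mu := by
    have := Intg.add hlam.1 (Intg.of_Q hQ).neg
    have e : lam + -(lam - mu) = mu := by abel
    rwa [e] at this
  have := levi_lie hn hnu hlam hQ hN le_rfl hW (V := V) (by rwa [one_mul']) (lhw_of_group a h)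
  rw [one_mul'] at this
  exact group_of_lhw b hmu this

theorem exists_isV {lam : Fin n → ℚ} (hl : IsDominant lam) :
    ∃ (V : Type) (_ : AddCommGroup V) (_ : Module ℂ V) (ρ : Rp n V), IsV lam ρ := by
  obtain ⟨V, a, b, ρ, h⟩ := P182G.exists_V hl
  exact ⟨V, a, b, ρ, (isV_iff _ _).2 h⟩

end Vale.Agent.N182
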